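import Crest.Agent.R294.Cover

/-!
One step of a descending chain of idempotent diagrams: the number of lost loop classes is paid for
by a drop of a potential.
-/

namespace Crest.Agent.R294
open Relation Sum

universe u
variable {P : Type u}

section rel
variable {X Y : CD P}

theorem step_h2a (hXY : X * Y = Y) (hYX : Y * X = Y) {p m m' : P}
    (h1 : Fw Y Y p m) (h2 : Fw X X m m') : Fw Y Y p m' := by
  have k1 : D Y Y (X * Y) (inl p) (inr m) := by rw [hXY]; exact h1
  have k2 : D (Y * Y) X Y (inl m) (inr m') :=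
    (D.ctxL ⟨Y * Y, by rw [mul_assoc, hYX]⟩ h2).ctxR ⟨Y, hXY.symm⟩
  have := D.comp k1 k2
  rwa [hYX] at this

theorem step_h2b (hXY : X * Y = Y) (hYX : Y * X = Y) {m m' q : P}
    (h1 : Fw X X m' m) (h2 : Fw Y Y m q) : Fw Y Y m' q := by
  have k1 : D Y X (Y * Y) (inl m') (inr m) :=
    (D.ctxL ⟨Y, hYX.symm⟩ h1).ctxR ⟨Y * Y, by rw [← mul_assoc, hXY]⟩
  have k2 : D (Y * X) Y Y (inl m) (inr q) := by rw [hYX]; exact h2
  have := D.comp k1 k2
  rwa [hXY] at this

theorem step_h1 [Finite P] (hX : X * X = X) (hY : Y * Y = Y) (hXY : X * Y = Y) (hYX : Y * X = Y)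
    {p : P} (h : Fw Y Y p p) : ∃ m, Fw X X m m ∧ Fw Y Y p m ∧ Fw Y Y m p := by
  have h' : D Y (X * Y) Y (inl p) (inr p) := by rw [hXY]; exact h
  obtain ⟨u, hu, hu'⟩ := first_cross h'
  obtain ⟨a, b, ha, hab, hb⟩ := cross_edge hu
  obtain ⟨m, hm1, hm2, hm3⟩ := Fw.loop hX (D.mid hab : Fw X X a b)
  have lift : ∀ {a b : P ⊕ P}, D X X X a b → D Y X Y a b :=
    fun h => (h.ctxL ⟨Y, hYX.symm⟩).ctxR ⟨Y, hXY.symm⟩
  refine ⟨m, hm2, ?_, ?_⟩
  · have k1 : D Y Y (X * Y) (inl p) (inr p) := by rw [hXY]; exact h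
    have k2 : D (Y * Y) X Y (inl p) (inr m) := by
      rw [hY]; exact (ha.oneR Y).trans (lift hm1)
    have := D.comp k1 k2
    rwa [hYX] at this
  · have k1 : D Y X (Y * Y) (inl m) (inr u) := by
      rw [hY]; exact (lift hm3).trans (hb.oneR Y)
    have := D.comp k1 hu'
    rwa [hXY] at this

theorem decompR {l x : CD P} {a b : P} (h : D l x 1 (inr a) (inr b)) :
    x.r (inr a) (inr b) ∨ ∃ a', D l x 1 (inr a) (inl a') ∧ x.r (inl a') (inr b) := by
  have key : ∀ w, D l x 1 (inr a) w → ∀ b, w = inr b →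
      x.r (inr a) (inr b) ∨ ∃ a', D l x 1 (inr a) (inl a') ∧ x.r (inl a') (inr b) := by
    intro w hw
    induction hw with
    | refl => rintro b ⟨⟩; exact Or.inl (x.refl _)
    | @tail w w' h1 hedge ih =>
      rintro b rfl
      cases w with
      | inl a' =>
        cases hedge with
        | mid h => exact Or.inr ⟨a', h1, h⟩
      | inr b' =>
        have h2 : x.r (inr b') (inr b) := by
          cases hedge with
          | mid h => exact h
          | right h => exact RR_one x h
        rcases ih b' rfl with h | ⟨a', h3, h4⟩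
        · exact Or.inl (x.trans h h2)
        · exact Or.inr ⟨a', h3, x.trans h4 h2⟩
  exact key _ h b rfl

theorem decompL {x r : CD P} {a b : P} (h : D 1 x r (inl a) (inl b)) :
    x.r (inl a) (inl b) ∨ ∃ b', x.r (inl a) (inr b') ∧ D 1 x r (inr b') (inl b) := by
  have key : ∀ w, D 1 x r w (inl b) → ∀ a, w = inl a →
      x.r (inl a) (inl b) ∨ ∃ b', x.r (inl a) (inr b') ∧ D 1 x r (inr b') (inl b) := by
    intro w hw
    induction hw using ReflTransGen.head_induction_on with
    | refl => rintro a ⟨⟩; exact Or.inl (x.refl _)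
    | @head w w' hedge h1 ih =>
      rintro a rfl
      cases w' with
      | inr b' =>
        cases hedge with
        | mid h => exact Or.inr ⟨b', h, h1⟩
      | inl a' =>
        have h2 : x.r (inl a) (inl a') := by
          cases hedge with
          | mid h => exact h
          | left h => exact LL_one x h
        rcases ih a' rfl with h | ⟨b', h3, h4⟩
        · exact Or.inl (x.trans h2 h)
        · exact Or.inr ⟨b', x.trans h2 h3, h4⟩
  exact key _ h a rfl

theorem step_h3 [Finite P] (hX : X * X = X) (hY : Y * Y = Y) (hXY : X * Y = Y) (hYX : Y * X = Y)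
    {m : P} (hmX : Fw X X m m) (hmY : Fw Y Y m m)
    (hall : ∀ m', Fw X X m' m' → Fw Y Y m m' → Fw Y Y m' m → Fw X X m m' ∧ Fw X X m' m) :
    Fw X Y m m := by
  have lift : ∀ {a b : P ⊕ P}, D X X X a b → D Y X Y a b :=
    fun h => (h.ctxL ⟨Y, hYX.symm⟩).ctxR ⟨Y, hXY.symm⟩
  have s1 : D X Y Y (inl m) (inr m) := by
    have key : ∀ w, D Y Y Y (inl m) w → D Y Y Y w (inr m) → R3 X X Y Y (1, m) (at2 2 3 w) := by
      intro w hw
      induction hw with
      | refl =>
        intro _
        exact (R01 (a := inl m) (b := inr m)).2 (D.ctxR ⟨Y * Y, by rw [← mul_assoc, hXY]⟩ hmX)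
      | @tail w w' hw hedge ih =>
        intro hw'
        have ih' := ih (hw'.head hedge)
        cases hedge with
        | mid h => exact ih'.trans (R12.2 (D.mid h))
        | right h => exact ih'.trans (R12.2 (D.right h))
        | @left a b h =>
          rw [← hYX, mul_RR_iff] at h
          rcases decompR h with h | ⟨a', h1, h2⟩
          · exact ih'.trans ((R01 (a := inr a) (b := inr b)).2 (D.mid h))
          · obtain ⟨m', hm1, hm2, hm3⟩ := Fw.loop hX (D.mid h2 : Fw X X a' b)
            have k1 : Fw Y Y m m' := by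
              have e1 : D (Y * X) Y Y (inl m) (inl a) := by rw [hYX]; exact hw
              have e2 : D Y X (Y * Y) (inr a) (inl a') := h1.oneR _
              have e3 : D Y X (Y * Y) (inl a') (inr m') := by rw [hY]; exact lift hm1
              have e4 := (R12 (a := inl m) (b := inl m')).1
                (((R12.2 e1).trans (R01.2 e2)).trans (R01.2 e3))
              rw [hYX] at e4
              exact ReflTransGen.trans hmY ((LL_iff_RR hY).1 e4)
            have k2 : Fw Y Y m' m := step_h2b hXY hYX hm3 hw'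
            have k3 : Fw X X m b := (hall m' hm2 k1 k2).1.trans hX hm3
            exact (R01 (a := inl m) (b := inr b)).2 (D.ctxR ⟨Y * Y, by rw [← mul_assoc, hXY]⟩ k3)
    have := (R02 (a := inl m) (b := inr m)).1 (key _ hmY .refl)
    rwa [hXY] at this
  have key : ∀ w, D X Y Y w (inr m) → D X Y Y (inl m) w → R3 X Y X X (at2 1 2 w) (3, m) := by
    intro w hw
    induction hw using ReflTransGen.head_induction_on with
    | refl =>
      intro _
      exact (R12 (a := inl m) (b := inr m)).2 (D.ctxL ⟨X * Y, by rw [mul_assoc, hYX]⟩ hmX)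
    | @head w w' hedge hw ih =>
      intro hw'
      have ih' := ih (hw'.tail hedge)
      cases hedge with
      | mid h => exact (R01.2 (D.mid h)).trans ih'
      | left h => exact (R01.2 (D.left h)).trans ih'
      | @right a b h =>
        rw [← hXY, mul_LL_iff] at h
        rcases decompL h with h | ⟨b', h1, h2⟩
        · exact ((R12 (a := inl a) (b := inl b)).2 (D.mid h)).trans ih'
        · obtain ⟨m', hm1, hm2, hm3⟩ := Fw.loop hX (D.mid h1 : Fw X X a b')
          have k1 : Fw Y Y m m' := step_h2a hXY hYX (D.ctxL ⟨Y, hYX.symm⟩ hw') hm1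
          have k2 : Fw Y Y m' m := by
            have e1 : D (Y * Y) X Y (inl m') (inr b') := by rw [hY]; exact lift hm3
            have e2 : D (Y * Y) X Y (inr b') (inl b) := h2.oneL _
            have e3 : D Y Y (X * Y) (inr b) (inr m) := by
              rw [hXY]; exact D.ctxL ⟨Y, hYX.symm⟩ hw
            have e4 := (R01 (a := inr m') (b := inr m)).1
              (((R12.2 e1).trans (R12.2 e2)).trans (R01.2 e3))
            rw [hXY] at e4
            exact ReflTransGen.trans ((LL_iff_RR hY).2 e4) hmY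
          have k3 : Fw X X a m := hm1.trans hX (hall m' hm2 k1 k2).2
          exact (R12 (a := inl a) (b := inr m)).2 (D.ctxL ⟨X * Y, by rw [mul_assoc, hYX]⟩ k3)
  have := (R02 (a := inl m) (b := inr m)).1 (key _ s1 .refl)
  rwa [hYX] at this

end rel

/-- the class of a point -/
def cls (A : P → P → Prop) (p : P) : Set P := {q | A p q ∧ A q p}

open Classical in
/-- loop classes containing no point of `G` -/
noncomputable def pureN [Fintype P] (A : P → P → Prop) (G : Set P) : Finset (Set P) :=
  (Finset.univ.filter (fun p => A p p ∧ ∀ g ∈ G, ¬ (A p g ∧ A g p))).image (cls A)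

theorem cls_eq {A : P → P → Prop} (ht : ∀ a b c, A a b → A b c → A a c) {p q : P}
    (h1 : A p q) (h2 : A q p) : cls A p = cls A q := by
  ext t
  exact ⟨fun h => ⟨ht _ _ _ h2 h.1, ht _ _ _ h.2 h1⟩, fun h => ⟨ht _ _ _ h1 h.1, ht _ _ _ h.2 h2⟩⟩

theorem of_cls_eq {A : P → P → Prop} {p q : P} (hq : A q q) (h : cls A p = cls A q) :
    A p q ∧ A q p := by
  have : q ∈ cls A q := ⟨hq, hq⟩
  rwa [← h] at this

theorem count_step [Fintype P] (A B : P → P → Prop) (C : P → Prop) (G : Set P)
    (hB : ∀ a b c, B a b → B b c → B a c)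
    (h1 : ∀ p, B p p → ∃ m, A m m ∧ B p m ∧ B m p)
    (h2a : ∀ p m m', B p m → A m m' → B p m') (h2b : ∀ m m' q, A m' m → B m q → B m' q)
    (h3 : ∀ m, A m m → B m m → (∀ m', A m' m' → B m m' → B m' m → A m m' ∧ A m' m) → C m)
    (h4 : ∀ p m, A p m → C m → A m p → C p) (h5 : ∀ g ∈ G, C g) :
    ∃ V : Finset P, (∀ p, A p p → C p ∨ ∃ c ∈ V, A p c ∧ A c p) ∧
      2 * (pureN B G).card + V.card ≤ 2 * (pureN A G).card := by
  classical
  set L : Finset (Set P) := (Finset.univ.filter (fun p => A p p ∧ ¬ C p)).image (cls A) with hL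
  obtain ⟨V, hV1, hV2, hV3⟩ := Finset.exists_subset_injOn_image_eq_of_surjOn (f := cls A)
    {p | A p p ∧ ¬ C p} L (by
      intro S hS
      simp only [hL, Finset.coe_image, Finset.coe_filter, Finset.mem_univ, true_and] at hS
      exact hS)
  have hVcard : V.card = L.card := by rw [← hV3, Finset.card_image_of_injOn hV2]
  have hLsub : L ⊆ pureN A G := by
    intro S hS
    simp only [hL, pureN, Finset.mem_image, Finset.mem_filter, Finset.mem_univ, true_and] at hS ⊢
    obtain ⟨p, ⟨hp1, hp2⟩, rfl⟩ := hS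
    exact ⟨p, ⟨hp1, fun g hg h => hp2 (h4 p g h.1 (h5 g hg) h.2)⟩, rfl⟩
  refine ⟨V, ?_, ?_⟩
  · intro p hp
    by_cases hC : C p
    · exact Or.inl hC
    · right
      have : cls A p ∈ V.image (cls A) := by
        rw [hV3, hL]
        exact Finset.mem_image_of_mem _ (by simp [hp, hC])
      obtain ⟨c, hc, hc'⟩ := Finset.mem_image.1 this
      exact ⟨c, hc, of_cls_eq (hV1 hc).1 hc'.symm⟩
  · let par : Set P → Set P := fun S => {q | ∃ p ∈ S, B p q ∧ B q p}
    let w : Set P → ℕ := fun S => if S ∈ L then 1 else 2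
    have hpar : ∀ m, A m m → par (cls A m) = cls B m := by
      intro m hm
      ext q
      constructor
      · rintro ⟨p, ⟨hp1, hp2⟩, hq1, hq2⟩
        exact ⟨h2b _ _ _ hp1 hq1, h2a _ _ _ hq2 hp2⟩
      · intro hq
        exact ⟨m, ⟨hm, hm⟩, hq⟩
    have hsum : ∑ S ∈ pureN A G, w S + L.card = 2 * (pureN A G).card := by
      have : ∑ S ∈ pureN A G, (w S + if S ∈ L then 1 else 0) = ∑ S ∈ pureN A G, 2 := by
        refine Finset.sum_congr rfl fun S _ => ?_
        simp only [w]; split_ifs <;> rfl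
      rw [Finset.sum_add_distrib, Finset.sum_boole, Finset.filter_mem_eq_inter,
        Finset.inter_eq_right.2 hLsub] at this
      simpa [mul_comm] using this
    have hfib := Finset.sum_fiberwise_le_sum_of_sum_fiber_nonneg (s := pureN A G) (t := pureN B G)
      (g := par) (f := w) (fun _ _ => Nat.zero_le _)
    have hlow : ∑ Q ∈ pureN B G, 2 ≤ ∑ Q ∈ pureN B G, ∑ S ∈ pureN A G with par S = Q, w S := by
      refine Finset.sum_le_sum fun Q hQ => ?_
      simp only [pureN, Finset.mem_image, Finset.mem_filter, Finset.mem_univ, true_and] at hQ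
      obtain ⟨p, ⟨hp1, hp2⟩, rfl⟩ := hQ
      obtain ⟨m, hm1, hm2, hm3⟩ := h1 p hp1
      have hmem : ∀ m', A m' m' → B p m' → B m' p →
          cls A m' ∈ (pureN A G).filter (fun S => par S = cls B p) := by
        intro m' k1 k2 k3
        simp only [pureN, Finset.mem_image, Finset.mem_filter, Finset.mem_univ, true_and]
        refine ⟨⟨m', ⟨k1, fun g hg h => hp2 g hg ⟨h2a _ _ _ k2 h.1, h2b _ _ _ h.2 k3⟩⟩, rfl⟩, ?_⟩
        rw [hpar m' k1, cls_eq hB k3 k2]
      by_cases hall : ∀ m', A m' m' → B m m' → B m' m → A m m' ∧ A m' m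
      · have hC := h3 m hm1 (hB _ _ _ hm3 hm2) hall
        have hnot : cls A m ∉ L := by
          intro hS
          simp only [hL, Finset.mem_image, Finset.mem_filter, Finset.mem_univ, true_and] at hS
          obtain ⟨q, ⟨hq1, hq2⟩, hq3⟩ := hS
          have := of_cls_eq hm1 hq3
          exact hq2 (h4 q m this.1 hC this.2)
        have := Finset.single_le_sum (f := w) (fun _ _ => Nat.zero_le _) (hmem m hm1 hm2 hm3)
        simpa [w, hnot] using this
      · push Not at hall
        obtain ⟨m', k1, k2, k3, k4⟩ := hall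
        have hne : cls A m ≠ cls A m' := fun h => k4 (of_cls_eq k1 h).1 (of_cls_eq k1 h).2
        have hsub : ({cls A m, cls A m'} : Finset (Set P)) ⊆
            (pureN A G).filter (fun S => par S = cls B p) := by
          intro S hS
          rcases Finset.mem_insert.1 hS with rfl | hS
          · exact hmem m hm1 hm2 hm3
          · rw [Finset.mem_singleton.1 hS]
            exact hmem m' k1 (hB _ _ _ hm2 k2) (hB _ _ _ k3 hm3)
        have := Finset.sum_le_sum_of_subset (f := w) hsub
        rw [Finset.sum_pair hne] at this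
        have w1 : ∀ S, 1 ≤ w S := fun S => by simp only [w]; split_ifs <;> omega
        have := w1 (cls A m)
        have := w1 (cls A m')
        omega
    rw [Finset.sum_const, smul_eq_mul] at hlow
    omega

/-- points whose forward class for `e` avoids `W` -/
def good (e : CD P) (W : Finset P) : Set P :=
  {g | Fw e e g g ∧ ¬ ∃ c ∈ W, Fw e e g c ∧ Fw e e c g}

/-- forward potential -/
noncomputable def potF [Fintype P] (e : CD P) (W : Finset P) (X : CD P) : ℕ :=
  (pureN (Fw X X) (good e W)).card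

/-- total potential -/
noncomputable def pot [Fintype P] (e : CD P) (W : Finset P) (X : CD P) : ℕ :=
  potF e W X + potF e.flip W X.flip

theorem potF_self [Fintype P] {e : CD P} (he : e * e = e) (W : Finset P) :
    potF e W e ≤ W.card := by
  classical
  refine le_trans (Finset.card_le_card ?_) (Finset.card_image_le (s := W) (f := cls (Fw e e)))
  intro S hS
  simp only [pureN, Finset.mem_image, Finset.mem_filter, Finset.mem_univ, true_and] at hS ⊢
  obtain ⟨p, ⟨hp1, hp2⟩, rfl⟩ := hS
  have : ∃ c ∈ W, Fw e e p c ∧ Fw e e c p := by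
    by_contra h
    exact hp2 p ⟨hp1, h⟩ ⟨hp1, hp1⟩
  obtain ⟨c, hc, h1, h2⟩ := this
  exact ⟨c, hc, cls_eq (A := Fw e e) (fun _ _ _ h1 h2 => Fw.trans he h1 h2) h2 h1⟩

theorem pot_self [Fintype P] {e : CD P} (he : e * e = e) (W : Finset P) :
    pot e W e ≤ 2 * W.card := by
  have := potF_self he W
  have := potF_self (flip_eq he) W
  unfold pot
  omega

theorem chainF [Fintype P] {e X Y : CD P} {W : Finset P} (hX : X * X = X) (hY : Y * Y = Y)
    (hXY : X * Y = Y) (hYX : Y * X = Y) (h1 : e * X = X) (h2 : X * e = X) (hc : CovF e W Y) :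
    ∃ V : Finset P, CovF X V Y ∧ 2 * potF e W Y + V.card ≤ 2 * potF e W X := by
  refine count_step (Fw X X) (Fw Y Y) (fun p => Fw X Y p p) (good e W)
    (fun _ _ _ h1 h2 => Fw.trans hY h1 h2)
    (fun p hp => step_h1 hX hY hXY hYX hp) (fun _ _ _ h1 h2 => step_h2a hXY hYX h1 h2)
    (fun _ _ _ h1 h2 => step_h2b hXY hYX h1 h2)
    (fun m hm1 hm2 hall => step_h3 hX hY hXY hYX hm1 hm2 hall)
    (fun p m k1 k2 k3 => Fw.sandwich hX hXY hYX k1 k2 k3) ?_
  rintro g ⟨hg1, hg2⟩
  rcases hc g hg1 with h | h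
  · exact (D.ctxL ⟨X, h2.symm⟩ h).ctxR ⟨X, h1.symm⟩
  · exact absurd h hg2

theorem chain_step [Fintype P] {e X Y : CD P} {W : Finset P} (hX : X * X = X) (hY : Y * Y = Y)
    (hXY : X * Y = Y) (hYX : Y * X = Y) (h1 : e * X = X) (h2 : X * e = X) (hc : Cov e W Y) :
    ∃ V : Finset P, Cov X V Y ∧ 2 * pot e W Y + V.card ≤ 2 * pot e W X := by
  classical
  obtain ⟨V1, hV1, k1⟩ := chainF hX hY hXY hYX h1 h2 hc.1
  obtain ⟨V2, hV2, k2⟩ := chainF (flip_eq hX) (flip_eq hY) (flip_eq hYX) (flip_eq hXY)
    (flip_eq h2) (flip_eq h1) hc.2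
  refine ⟨V1 ∪ V2, ⟨hV1.mono Finset.subset_union_left, hV2.mono Finset.subset_union_right⟩, ?_⟩
  have := Finset.card_union_le V1 V2
  unfold pot
  omega

end Crest.Agent.R294
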