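import Crest.Agent.R294.Ctx

/-!
Loop classes of idempotent diagrams, covers of lost classes, the transfer lemma.
-/

namespace Crest.Agent.R294
open Relation Sum

universe u
variable {P : Type u}

theorem exists_loop {A : Type*} [Finite A] {F : A → A → Prop}
    (ht : ∀ a b c, F a b → F b c → F a c) (hd : ∀ a b, F a b → ∃ m, F a m ∧ F m b)
    {a b : A} (h : F a b) : ∃ m, F a m ∧ F m m ∧ F m b := by
  classical
  have hne : (Set.univ ∩ {m | F a m ∧ F m b}).Nonempty := by
    obtain ⟨m, hm⟩ := hd a b h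
    exact ⟨m, trivial, hm⟩
  obtain ⟨m, ⟨_, hm1, hm2⟩, hmin⟩ := Set.exists_min_image _
    (fun m => {m' | F a m' ∧ F m' m}.ncard) (Set.toFinite _) hne
  obtain ⟨m', h1, h2⟩ := hd a m hm1
  have hsub : {t | F a t ∧ F t m'} ⊆ {t | F a t ∧ F t m} :=
    fun t ht' => ⟨ht'.1, ht _ _ _ ht'.2 h2⟩
  have heq := Set.eq_of_subset_of_ncard_le hsub
    (hmin m' ⟨trivial, h1, ht _ _ _ h2 hm2⟩) (Set.toFinite _)
  have : m' ∈ {t | F a t ∧ F t m'} := by rw [heq]; exact ⟨h1, h2⟩
  exact ⟨m', h1, this.2, ht _ _ _ h2 hm2⟩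

/-- forward crossing of `x` between two copies of `e` -/
def Fw (e x : CD P) (p q : P) : Prop := D e x e (inl p) (inr q)

theorem Fw.comp {e x y : CD P} (hx : x * e = x) (hy : e * y = y) {p m q : P}
    (h1 : Fw e x p m) (h2 : Fw e y m q) : Fw e (x * y) p q :=
  D.comp (D.ctxR ⟨y * e, by rw [← mul_assoc, hy]⟩ h1)
    (D.ctxL ⟨e * x, by rw [mul_assoc, hx]⟩ h2)

theorem Fw.trans {e : CD P} (he : e * e = e) {p m q : P}
    (h1 : Fw e e p m) (h2 : Fw e e m q) : Fw e e p q := by
  have := Fw.comp he he h1 h2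
  rwa [he] at this

theorem Fw.dense {e : CD P} (he : e * e = e) {p q : P} (h : Fw e e p q) :
    ∃ m, Fw e e p m ∧ Fw e e m q := by
  have h' : D e (e * e) e (inl p) (inr q) := by rw [he]; exact h
  obtain ⟨m, h1, h2⟩ := first_cross h'
  rw [he] at h2
  exact ⟨m, h1.oneR e, h2⟩

theorem Fw.loop [Finite P] {e : CD P} (he : e * e = e) {p q : P} (h : Fw e e p q) :
    ∃ m, Fw e e p m ∧ Fw e e m m ∧ Fw e e m q :=
  exists_loop (F := Fw e e) (fun _ _ _ h1 h2 => Fw.trans he h1 h2)
    (fun _ _ h1 => Fw.dense he h1) h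

theorem Fw.sandwich {e x : CD P} (he : e * e = e) (h1 : e * x = x) (h2 : x * e = x) {p m m' q : P}
    (hp : Fw e e p m) (hm : Fw e x m m') (hq : Fw e e m' q) : Fw e x p q := by
  have h3 := Fw.comp he h1 hp hm
  rw [h1] at h3
  have h4 := Fw.comp h2 he h3 hq
  rwa [h2] at h4

theorem Fw_flip {e x : CD P} {p q : P} : Fw e.flip x.flip p q ↔ D e x e (inr p) (inl q) :=
  D_flip (l := e) (x := x) (r := e) (a := inr p) (b := inl q)

theorem LL_iff_RR {g : CD P} (hg : g * g = g) {p q : P} :
    D g g g (inl p) (inl q) ↔ D g g g (inr p) (inr q) := by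
  have h1 := R12 (l := g) (x := g) (y := g) (r := g) (a := inl p) (b := inl q)
  have h2 := R01 (l := g) (x := g) (y := g) (r := g) (a := inr p) (b := inr q)
  rw [hg] at h1 h2
  exact h1.symm.trans h2

/-- every forward loop class of `e` lost in `x` meets `W` -/
def CovF (e : CD P) (W : Finset P) (x : CD P) : Prop :=
  ∀ p, Fw e e p p → Fw e x p p ∨ ∃ c ∈ W, Fw e e p c ∧ Fw e e c p

/-- every forward or backward loop class of `e` lost in `x` meets `W` -/
def Cov (e : CD P) (W : Finset P) (x : CD P) : Prop := CovF e W x ∧ CovF e.flip W x.flip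

theorem Cov.flip {e x : CD P} {W : Finset P} (h : Cov e W x) : Cov e.flip W x.flip :=
  ⟨h.2, by simpa using h.1⟩

theorem CovF.mono {e x : CD P} {W W' : Finset P} (hW : W ⊆ W') (h : CovF e W x) :
    CovF e W' x := fun p hp =>
  (h p hp).imp id fun ⟨c, hc, h⟩ => ⟨c, hW hc, h⟩

theorem Cov.mono {e x : CD P} {W W' : Finset P} (hW : W ⊆ W') (h : Cov e W x) : Cov e W' x :=
  ⟨h.1.mono hW, h.2.mono hW⟩

theorem Cov.self (e : CD P) (W : Finset P) : Cov e W e :=
  ⟨fun _ hp => Or.inl hp, fun _ hp => Or.inl hp⟩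

theorem Cov.univ [Fintype P] (e x : CD P) : Cov e Finset.univ x :=
  ⟨fun p hp => Or.inr ⟨p, Finset.mem_univ _, hp, hp⟩,
    fun p hp => Or.inr ⟨p, Finset.mem_univ _, hp, hp⟩⟩

theorem CovF.mul {e x y : CD P} {W : Finset P} (hx : x * e = x) (hy : e * y = y)
    (h1 : CovF e W x) (h2 : CovF e W y) : CovF e W (x * y) := by
  intro p hp
  rcases h1 p hp with h | h
  · rcases h2 p hp with h' | h'
    · exact Or.inl (Fw.comp hx hy h h')
    · exact Or.inr h'
  · exact Or.inr h

theorem flip_eq {a b c : CD P} (h : a * b = c) : b.flip * a.flip = c.flip := by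
  rw [← CD.flip_mul, h]

theorem Cov.mul {e x y : CD P} {W : Finset P} (hx : x * e = x) (hy : e * y = y)
    (h1 : Cov e W x) (h2 : Cov e W y) : Cov e W (x * y) := by
  refine ⟨h1.1.mul hx hy h2.1, ?_⟩
  rw [CD.flip_mul]
  exact h2.2.mul (flip_eq hy) (flip_eq hx) h1.2

theorem mul3_iff {l y r : CD P} {a b : P ⊕ P} :
    (l * y * r).r a b ↔ Reach (seq3 l.r y.r r.r) (at2 0 3 a) (at2 0 3 b) := by
  have h := collapse (seq3 l.r y.r r.r) 0 (at2 0 2 a) (at2 0 2 b)
  rw [coll3_0] at h
  rw [CD.mul_r, CD.mul_r, mulR, ← h]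
  cases a <;> cases b <;> rfl

theorem absorb {l x y r : CD P} (h : ∀ a b, y.r a b → D l x r a b) :
    (l * y * r).Sub (l * x * r) := by
  intro a b hab
  rw [mul3_iff] at hab ⊢
  refine rt_mono ?_ hab
  rintro _ _ ⟨k, c, d, hk, rfl, rfl⟩
  match k, hk with
  | 0, hk => exact Reach.edge (F := seq3 l.r x.r r.r) 0 hk
  | 1, hk => exact (D_iff _ _ _ _ _).1 (h _ _ hk)
  | 2, hk => exact Reach.edge (F := seq3 l.r x.r r.r) 2 hk
  | _ + 3, hk => exact hk.elim

theorem CovF.empty [Finite P] {e x : CD P} (he : e * e = e) (h1 : e * x = x) (h2 : x * e = x)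
    (h : CovF e ∅ x) {p q : P} (hpq : Fw e e p q) : Fw e x p q := by
  obtain ⟨m, hm1, hm2, hm3⟩ := hpq.loop he
  rcases h m hm2 with h | ⟨c, hc, _⟩
  · exact Fw.sandwich he h1 h2 hm1 h hm3
  · simp at hc

theorem Cov.sub_of_empty [Finite P] {e x : CD P} (he : e * e = e) (h1 : e * x = x)
    (h2 : x * e = x) (h : Cov e ∅ x) : e.Sub x := by
  have key : (e * e * e).Sub (e * x * e) := by
    refine absorb ?_
    rintro (p | p) (q | q) hab
    · refine D.mid ?_
      rw [← h1]; exact LL_mul x hab
    · exact h.1.empty he h1 h2 (D.mid hab)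
    · exact Fw_flip.1 (h.2.empty (flip_eq he) (flip_eq h2) (flip_eq h1) (Fw_flip.2 (D.mid hab)))
    · refine D.mid ?_
      rw [← h2]; exact RR_mul x hab
  rwa [he, he, h1, h2] at key

/-- the forward loop `p` of `g = y * z` can pass through the middle point `c` -/
def Uses (g y z : CD P) (c p : P) : Prop :=
  D g y (z * g) (inl p) (inr c) ∧ D (g * y) z g (inl c) (inr p)

theorem ctx_core [Finite P] {e g y z x : CD P} {W : Finset P} (he : e * e = e) (hy : y * e = y)
    (hz : e * z = z) (hyz : y * z = g) (h1 : e * x = x) (h2 : x * e = x) (hc : Cov e W x)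
    {p : P} (hp : Fw g g p p) (hno : ∀ c ∈ W, ¬ Uses g y z c p) : Fw g (y * x * z) p p := by
  have hp' : D g (y * (e * z)) g (inl p) (inr p) := by rw [hz, hyz]; exact hp
  obtain ⟨u, hu, hu'⟩ := first_cross hp'
  obtain ⟨v, huv, hv⟩ := last_cross hu'
  have hL : g * y * e = g * y := by rw [mul_assoc, hy]
  have hR : e * (z * g) = z * g := by rw [← mul_assoc, hz]
  have lift : ∀ {t : CD P} {a b : P ⊕ P}, D e t e a b → D (g * y) t (z * g) a b :=
    fun h => (h.ctxL ⟨g * y, hL.symm⟩).ctxR ⟨z * g, hR.symm⟩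
  have huse : ∀ c, D (g * y) e (z * g) (inl u) (inr c) → D (g * y) e (z * g) (inl c) (inr v) →
      Uses g y z c p := by
    intro c hc1 hc2
    constructor
    · have := D.comp (hu.oneR (e * (z * g))) hc1
      rwa [hy] at this
    · have := D.comp hc2 (hv.oneL (g * y * e))
      rwa [hz] at this
  have key : ∀ w, D (g * y) e (z * g) (inl u) w → D (g * y) e (z * g) w (inr v) →
      D (g * y) x (z * g) (inl u) w := by
    intro w hw
    induction hw with
    | refl => intro _; exact .refl
    | @tail w w' hw hedge ih =>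
      intro hw'
      refine (ih (hw'.head hedge)).trans ?_
      cases hedge with
      | left h => exact D.left h
      | right h => exact D.right h
      | mid h =>
        cases w with
        | inl a =>
          cases w' with
          | inl b =>
            refine D.mid ?_
            rw [← h1]; exact LL_mul x h
          | inr b =>
            obtain ⟨m, hm1, hm2, hm3⟩ := Fw.loop he (D.mid h : Fw e e a b)
            rcases hc.1 m hm2 with hx | ⟨c, hcW, hc1, hc2⟩
            · exact lift (Fw.sandwich he h1 h2 hm1 hx hm3)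
            · exact absurd (huse c (hw.trans (lift (hm1.trans he hc1)))
                ((lift (hc2.trans he hm3)).trans hw')) (hno c hcW)
        | inr a =>
          cases w' with
          | inr b =>
            refine D.mid ?_
            rw [← h2]; exact RR_mul x h
          | inl b =>
            have he' := flip_eq he
            obtain ⟨m, hm1, hm2, hm3⟩ := Fw.loop he' (Fw_flip.2 (D.mid h) : Fw e.flip e.flip a b)
            rcases hc.2 m hm2 with hx | ⟨c, hcW, hc1, hc2⟩
            · exact lift (Fw_flip.1 (Fw.sandwich he' (flip_eq h2) (flip_eq h1) hm1 hx hm3))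
            · refine absurd (huse c ?_ ?_) (hno c hcW)
              · have k1 : D (g * y) (e * e) (z * g) (inl u) (inr a) := by rw [he]; exact hw
                have k2 : D (g * y * e) e (z * g) (inr a) (inl c) := by
                  rw [hL]; exact lift (Fw_flip.1 (hm1.trans he' hc1))
                have := (R01 (a := inl u) (b := inr c)).1 ((R02.2 k1).trans (R12.2 k2))
                rwa [hR] at this
              · have k1 : D (g * y) (e * e) (z * g) (inl b) (inr v) := by rw [he]; exact hw'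
                have k2 : D (g * y) e (e * (z * g)) (inr c) (inl b) := by
                  rw [hR]; exact lift (Fw_flip.1 (hc2.trans he' hm3))
                have := (R12 (a := inl c) (b := inr v)).1 ((R01.2 k2).trans (R02.2 k1))
                rwa [hL] at this
  have k := key _ huv .refl
  have k2 : D (g * y) (x * z) g (inl u) (inr p) := D.comp k (hv.oneL _)
  have k3 := D.comp (hu.oneR _) k2
  rw [mul_assoc]
  exact k3

theorem users_equiv {g y z : CD P} (hg : g * g = g) (hyz : y * z = g) {c p q : P}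
    (hp : Uses g y z c p) (hq : Uses g y z c q ∨ Uses g.flip z.flip y.flip c q) :
    Fw g g p q ∧ Fw g g q p := by
  have e1 := (R01 (a := inl p) (b := inr c)).2 hp.1
  have e2 := (R12 (a := inl c) (b := inr p)).2 hp.2
  rcases hq with hq | hq
  · have f1 := (R01 (a := inl q) (b := inr c)).2 hq.1
    have f2 := (R12 (a := inl c) (b := inr q)).2 hq.2
    have k1 := (R02 (a := inl p) (b := inr q)).1 (e1.trans f2)
    have k2 := (R02 (a := inl q) (b := inr p)).1 (f1.trans e2)
    rw [hyz] at k1 k2
    exact ⟨k1, k2⟩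
  · obtain ⟨hq1, hq2⟩ := hq
    rw [← CD.flip_mul] at hq1 hq2
    have f1 := R12.2 ((D_flip (a := inr q) (b := inl c)).1 hq1)
    have f2 := R01.2 ((D_flip (a := inr c) (b := inl q)).1 hq2)
    have k0 := (R02 (a := inl p) (b := inr p)).1 (e1.trans e2)
    have k1 := (R02 (a := inl p) (b := inl q)).1 (e1.trans f2)
    have k2 := (R02 (a := inr q) (b := inr p)).1 (f1.trans e2)
    rw [hyz] at k0 k1 k2
    exact ⟨k0.trans ((LL_iff_RR hg).1 k1), ((LL_iff_RR hg).2 k2).trans k0⟩

/-- the transfer lemma: covers pass to a context without growing -/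
theorem ctx_cov [Finite P] {e g y z : CD P} (he : e * e = e) (hg : g * g = g) (hy : y * e = y)
    (hz : e * z = z) (hyz : y * z = g) (W : Finset P) :
    ∃ W' : Finset P, W'.card ≤ W.card ∧
      ∀ x, e * x = x → x * e = x → Cov e W x → Cov g W' (y * x * z) := by
  classical
  let U : P → P → Prop := fun c q => Uses g y z c q ∨ Uses g.flip z.flip y.flip c q
  let w : P → P := fun c => if h : ∃ q, U c q then h.choose else c
  have hw : ∀ c q, U c q → U c (w c) := by
    intro c q hq
    have h : ∃ q, U c q := ⟨q, hq⟩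
    simp only [w, dif_pos h]
    exact h.choose_spec
  refine ⟨W.image w, Finset.card_image_le, fun x h1 h2 hc => ⟨?_, ?_⟩⟩
  · intro p hp
    by_cases h : ∃ c ∈ W, Uses g y z c p
    · obtain ⟨c, hcW, hu⟩ := h
      exact Or.inr ⟨w c, Finset.mem_image_of_mem _ hcW,
        users_equiv hg hyz hu (hw c p (Or.inl hu))⟩
    · push Not at h
      exact Or.inl (ctx_core he hy hz hyz h1 h2 hc hp h)
  · intro p hp
    by_cases h : ∃ c ∈ W, Uses g.flip z.flip y.flip c p
    · obtain ⟨c, hcW, hu⟩ := h
      refine Or.inr ⟨w c, Finset.mem_image_of_mem _ hcW,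
        users_equiv (flip_eq hg) (flip_eq hyz) hu ?_⟩
      simpa using (hw c p (Or.inr hu)).symm
    · push Not at h
      left
      rw [CD.flip_mul, CD.flip_mul, ← mul_assoc]
      exact ctx_core (flip_eq he) (flip_eq hz) (flip_eq hy) (flip_eq hyz) (flip_eq h2) (flip_eq h1)
        hc.flip hp h

end Crest.Agent.R294
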