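import Crest.Agent.R294.Diag

/-!
Diagrams in context: reachability across a middle diagram with a left and a right neighbour.
-/

namespace Crest.Agent.R294
open Relation Sum

universe u
variable {P : Type u}

/-- edges visible on the two boundaries of `x` when it has neighbours `l` and `r` -/
inductive DE (l x r : CD P) : P ⊕ P → P ⊕ P → Prop
  | mid {a b : P ⊕ P} : x.r a b → DE l x r a b
  | left {p q : P} : l.r (inr p) (inr q) → DE l x r (inl p) (inl q)
  | right {p q : P} : r.r (inl p) (inl q) → DE l x r (inr p) (inr q)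

/-- reachability across `x` in the context `l`, `r` -/
abbrev D (l x r : CD P) : Dg P := ReflTransGen (DE l x r)

theorem D.mid {l x r : CD P} {a b : P ⊕ P} (h : x.r a b) : D l x r a b := .single (.mid h)
theorem D.left {l x r : CD P} {p q : P} (h : l.r (inr p) (inr q)) : D l x r (inl p) (inl q) :=
  .single (.left h)
theorem D.right {l x r : CD P} {p q : P} (h : r.r (inl p) (inl q)) : D l x r (inr p) (inr q) :=
  .single (.right h)

theorem D_iff (l x r : CD P) (a b : P ⊕ P) :
    D l x r a b ↔ Reach (seq3 l.r x.r r.r) (at2 1 2 a) (at2 1 2 b) := by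
  constructor
  · intro h
    refine rt_lift (at2 1 2) ?_ h
    rintro c d (h | h | h)
    · exact Reach.edge (F := seq3 l.r x.r r.r) 1 h
    · exact Reach.edge (F := seq3 l.r x.r r.r) 0 h
    · exact Reach.edge (F := seq3 l.r x.r r.r) 2 h
  · intro h
    have key : ∀ w, Reach (seq3 l.r x.r r.r) (at2 1 2 a) w →
        (∃ c, w = at2 1 2 c ∧ D l x r a c) ∨
        (w.1 = 0 ∧ ∃ p, D l x r a (inl p) ∧ l.r (inr p) (inl w.2)) ∨
        (w.1 = 3 ∧ ∃ p, D l x r a (inr p) ∧ r.r (inl p) (inr w.2)) := by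
      intro w hw
      induction hw with
      | refl => exact Or.inl ⟨a, rfl, .refl⟩
      | @tail w w' _ hedge ih =>
        obtain ⟨k, c, d, hk, rfl, rfl⟩ := hedge
        match k, hk with
        | 0, hk =>
          have h0 : ∃ p, D l x r a (inl p) ∧ l.r (inr p) c := by
            rcases ih with ⟨c', hc, hD⟩ | ⟨h1, p, hp, hp'⟩ | ⟨h1, _⟩
            · cases c <;> cases c' <;> simp at hc
              subst hc
              exact ⟨_, hD, l.refl _⟩
            · cases c <;> simp at h1
              exact ⟨p, hp, hp'⟩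
            · cases c <;> simp at h1
          obtain ⟨p, hp, hp'⟩ := h0
          have h2 : l.r (inr p) d := l.trans hp' hk
          cases d with
          | inl q => exact Or.inr (Or.inl ⟨rfl, p, hp, h2⟩)
          | inr q => exact Or.inl ⟨inl q, rfl, hp.trans (D.left h2)⟩
        | 1, hk =>
          rcases ih with ⟨c', hc, hD⟩ | ⟨h1, _⟩ | ⟨h1, _⟩
          · obtain rfl := at2_inj (by omega) hc
            exact Or.inl ⟨d, rfl, hD.trans (D.mid hk)⟩
          · cases c <;> simp at h1
          · cases c <;> simp at h1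
        | 2, hk =>
          have h0 : ∃ p, D l x r a (inr p) ∧ r.r (inl p) c := by
            rcases ih with ⟨c', hc, hD⟩ | ⟨h1, _⟩ | ⟨h1, p, hp, hp'⟩
            · cases c <;> cases c' <;> simp at hc
              subst hc
              exact ⟨_, hD, r.refl _⟩
            · cases c <;> simp at h1
            · cases c <;> simp at h1
              exact ⟨p, hp, hp'⟩
          obtain ⟨p, hp, hp'⟩ := h0
          have h2 : r.r (inl p) d := r.trans hp' hk
          cases d with
          | inr q => exact Or.inr (Or.inr ⟨rfl, p, hp, h2⟩)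
          | inl q => exact Or.inl ⟨inr q, rfl, hp.trans (D.right h2)⟩
        | _ + 3, hk => exact hk.elim
    rcases key _ h with ⟨c, hc, hD⟩ | ⟨h1, _⟩ | ⟨h1, _⟩
    · rwa [at2_inj (by omega) hc]
    · cases b <;> simp at h1
    · cases b <;> simp at h1

/-- reachability in a four-block graph; the three inner layers are 1, 2, 3 -/
abbrev R3 (l x y r : CD P) : ℕ × P → ℕ × P → Prop := Reach (seq4 l.r x.r y.r r.r)

theorem R01 {l x y r : CD P} {a b : P ⊕ P} :
    R3 l x y r (at2 1 2 a) (at2 1 2 b) ↔ D l x (y * r) a b := by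
  have h := collapse (seq4 l.r x.r y.r r.r) 2 (at2 1 2 a) (at2 1 2 b)
  rw [coll4_2] at h
  rw [D_iff, CD.mul_r, ← h]
  cases a <;> cases b <;> rfl

theorem R12 {l x y r : CD P} {a b : P ⊕ P} :
    R3 l x y r (at2 2 3 a) (at2 2 3 b) ↔ D (l * x) y r a b := by
  have h := collapse (seq4 l.r x.r y.r r.r) 0 (at2 1 2 a) (at2 1 2 b)
  rw [coll4_0] at h
  rw [D_iff, CD.mul_r, ← h]
  cases a <;> cases b <;> rfl

theorem R02 {l x y r : CD P} {a b : P ⊕ P} :
    R3 l x y r (at2 1 3 a) (at2 1 3 b) ↔ D l (x * y) r a b := by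
  have h := collapse (seq4 l.r x.r y.r r.r) 1 (at2 1 2 a) (at2 1 2 b)
  rw [coll4_1] at h
  rw [D_iff, CD.mul_r, ← h]
  cases a <;> cases b <;> rfl

theorem D_one {x : CD P} {a b : P ⊕ P} : D 1 x 1 a b ↔ x.r a b := by
  refine ⟨fun h => x.rt (rt_mono ?_ h), D.mid⟩
  rintro c d (h | h | h)
  · exact .single h
  · obtain rfl : _ = _ := h
    exact .refl
  · obtain rfl : _ = _ := h
    exact .refl

theorem D_mono {l l' x x' r r' : CD P} (hl : ∀ p q, l.r (inr p) (inr q) → l'.r (inr p) (inr q))
    (hx : x.Sub x') (hr : ∀ p q, r.r (inl p) (inl q) → r'.r (inl p) (inl q)) {a b : P ⊕ P}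
    (h : D l x r a b) : D l' x' r' a b := by
  refine rt_mono ?_ h
  rintro c d (h | h | h)
  · exact D.mid (hx _ _ h)
  · exact D.left (hl _ _ h)
  · exact D.right (hr _ _ h)

theorem RR_mul (l : CD P) {x : CD P} {p q : P} (h : x.r (inr p) (inr q)) :
    (l * x).r (inr p) (inr q) :=
  Reach.edge (F := seq2 l.r x.r) 1 h

theorem LL_mul {x : CD P} (r : CD P) {p q : P} (h : x.r (inl p) (inl q)) :
    (x * r).r (inl p) (inl q) :=
  Reach.edge (F := seq2 x.r r.r) 0 h

theorem RR_one (l : CD P) {p q : P} (h : (1 : CD P).r (inr p) (inr q)) : l.r (inr p) (inr q) := by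
  obtain rfl : p = q := h
  exact l.refl _

theorem LL_one (l : CD P) {p q : P} (h : (1 : CD P).r (inl p) (inl q)) : l.r (inl p) (inl q) := by
  obtain rfl : p = q := h
  exact l.refl _

/-- enlarge the left context -/
theorem D.ctxL {l l' x r : CD P} (hl : ∃ t, l' = t * l) {a b : P ⊕ P} (h : D l x r a b) :
    D l' x r a b := by
  obtain ⟨t, rfl⟩ := hl
  exact D_mono (fun _ _ h => RR_mul t h) (CD.Sub.rfl _) (fun _ _ h => h) h

/-- enlarge the right context -/
theorem D.ctxR {l x r r' : CD P} (hr : ∃ t, r' = r * t) {a b : P ⊕ P} (h : D l x r a b) :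
    D l x r' a b := by
  obtain ⟨t, rfl⟩ := hr
  exact D_mono (fun _ _ h => h) (CD.Sub.rfl _) (fun _ _ h => LL_mul t h) h

theorem D.oneL {x r : CD P} (l : CD P) {a b : P ⊕ P} (h : D 1 x r a b) : D l x r a b :=
  h.ctxL ⟨l, (mul_one l).symm⟩

theorem D.oneR {l x : CD P} (r : CD P) {a b : P ⊕ P} (h : D l x 1 a b) : D l x r a b :=
  h.ctxR ⟨r, (one_mul r).symm⟩

theorem D_flip_aux {l x r : CD P} {a b : P ⊕ P} (h : D l x r a b) :
    D r.flip x.flip l.flip a.swap b.swap := by
  refine rt_lift Sum.swap ?_ h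
  rintro c d (h | h | h)
  · exact D.mid (by simpa [CD.flip] using h)
  · exact D.right h
  · exact D.left h

theorem D_flip {l x r : CD P} {a b : P ⊕ P} :
    D r.flip x.flip l.flip a.swap b.swap ↔ D l x r a b := by
  refine ⟨fun h => ?_, D_flip_aux⟩
  simpa using D_flip_aux h

theorem mul_RR_iff {l x : CD P} {p q : P} :
    (l * x).r (inr p) (inr q) ↔ D l x 1 (inr p) (inr q) := by
  rw [← D_one, ← R02]
  have := R12 (l := 1) (x := l) (y := x) (r := 1) (a := inr p) (b := inr q)
  rw [one_mul] at this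
  exact this

theorem mul_LL_iff {x r : CD P} {p q : P} :
    (x * r).r (inl p) (inl q) ↔ D 1 x r (inl p) (inl q) := by
  rw [← D_one, ← R02]
  have := R01 (l := 1) (x := x) (y := r) (r := 1) (a := inl p) (b := inl q)
  rw [mul_one] at this
  exact this

theorem first_cross' {l x y r : CD P} {p : P} {w : ℕ × P} (h : R3 l x y r (1, p) w) :
    (w.1 ≤ 1 ∧ Reach (seq3 l.r x.r (1 : CD P).r) (1, p) w) ∨
      ∃ m, D l x 1 (inl p) (inr m) ∧ R3 l x y r (2, m) w := by
  induction h with
  | refl => exact Or.inl ⟨le_rfl, Reach.refl _ _⟩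
  | @tail w w' _ hedge ih =>
    rcases ih with ⟨h1, h2⟩ | ⟨m, hm, hm'⟩
    · obtain ⟨k, c, d, hk, rfl, rfl⟩ := hedge
      match k, hk with
      | 0, hk =>
        refine Or.inl ⟨?_, h2.trans (Reach.edge (F := seq3 l.r x.r (1 : CD P).r) 0 hk)⟩
        cases d <;> simp
      | 1, hk =>
        have h3 := h2.trans (Reach.edge (F := seq3 l.r x.r (1 : CD P).r) 1 hk)
        cases d with
        | inl q => exact Or.inl ⟨le_rfl, h3⟩
        | inr q => exact Or.inr ⟨q, (D_iff _ _ _ (inl p) (inr q)).2 h3, Reach.refl _ _⟩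
      | k + 2, hk => cases c <;> simp at h1
    · exact Or.inr ⟨m, hm, hm'.tail hedge⟩

theorem first_cross {l x y r : CD P} {p q : P} (h : D l (x * y) r (inl p) (inr q)) :
    ∃ m, D l x 1 (inl p) (inr m) ∧ D (l * x) y r (inl m) (inr q) := by
  rcases first_cross' (R02.2 h) with ⟨h1, _⟩ | ⟨m, hm, hm'⟩
  · simp at h1
  · exact ⟨m, hm, (R12 (a := inl m) (b := inr q)).1 hm'⟩

theorem first_cross_gen {x y : CD P} {p : P} {b : P ⊕ P} (h : (x * y).r (inl p) b) :
    x.r (inl p) b ∨ ∃ m, x.r (inl p) (inr m) := by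
  rcases first_cross' ((R02 (l := 1) (r := 1)).2 (D_one.2 h)) with ⟨h1, h2⟩ | ⟨m, hm, _⟩
  · cases b with
    | inl q => exact Or.inl (D_one.1 ((D_iff _ _ _ (inl p) (inl q)).2 h2))
    | inr q => simp at h1
  · exact Or.inr ⟨m, D_one.1 hm⟩

theorem last_cross {l x y r : CD P} {p q : P} (h : D l (x * y) r (inl p) (inr q)) :
    ∃ m, D l x (y * r) (inl p) (inr m) ∧ D 1 y r (inl m) (inr q) := by
  have key : ∀ w, R3 l x y r w (3, q) →
      (3 ≤ w.1 ∧ Reach (seq3 (1 : CD P).r y.r r.r) (w.1 - 1, w.2) (2, q)) ∨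
      ∃ m, R3 l x y r w (2, m) ∧ D 1 y r (inl m) (inr q) := by
    intro w hw
    induction hw using ReflTransGen.head_induction_on with
    | refl => exact Or.inl ⟨le_rfl, Reach.refl _ _⟩
    | @head w w' hedge _ ih =>
      rcases ih with ⟨h1, h2⟩ | ⟨m, hm, hm'⟩
      · obtain ⟨k, c, d, hk, rfl, rfl⟩ := hedge
        match k, hk with
        | 0, hk => cases d <;> simp at h1
        | 1, hk => cases d <;> simp at h1
        | 2, hk =>
          have h4 := Reach.edge (F := seq3 (1 : CD P).r y.r r.r) 1 hk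
          have h3 : Reach (seq3 (1 : CD P).r y.r r.r) (at2 1 2 c) (2, q) := by
            cases d with
            | inl t => simp at h1
            | inr t => exact h4.trans h2
          cases c with
          | inr t => exact Or.inl ⟨le_rfl, h3⟩
          | inl t => exact Or.inr ⟨t, Reach.refl _ _, (D_iff _ _ _ (inl t) (inr q)).2 h3⟩
        | 3, hk =>
          have h4 := Reach.edge (F := seq3 (1 : CD P).r y.r r.r) 2 hk
          left
          cases c <;> cases d <;> exact ⟨by simp, h4.trans h2⟩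
        | k + 4, hk => exact hk.elim
      · exact Or.inr ⟨m, hm.head hedge, hm'⟩
  rcases key _ (R02.2 h) with ⟨h1, _⟩ | ⟨m, hm, hm'⟩
  · simp at h1
  · exact ⟨m, (R01 (a := inl p) (b := inr m)).1 hm, hm'⟩

theorem cross_edge {l x r : CD P} {p q : P} (h : D l x r (inl p) (inr q)) :
    ∃ a b, D l x r (inl p) (inl a) ∧ x.r (inl a) (inr b) ∧ D l x r (inr b) (inr q) := by
  have key : ∀ w, D l x r (inl p) w → ∀ q, w = inr q →
      ∃ a b, D l x r (inl p) (inl a) ∧ x.r (inl a) (inr b) ∧ D l x r (inr b) (inr q) := by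
    intro w hw
    induction hw with
    | refl => intro q hq; simp at hq
    | @tail w w' h1 hedge ih =>
      rintro q rfl
      cases w with
      | inl a =>
        cases hedge with
        | mid h => exact ⟨a, q, h1, h, .refl⟩
      | inr b =>
        obtain ⟨a, b', h2, h3, h4⟩ := ih b rfl
        exact ⟨a, b', h2, h3, h4.tail hedge⟩
  exact key _ h q rfl

/-- composition of forward crossings -/
theorem D.comp {l x y r : CD P} {p m q : P} (h1 : D l x (y * r) (inl p) (inr m))
    (h2 : D (l * x) y r (inl m) (inr q)) : D l (x * y) r (inl p) (inr q) :=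
  (R02 (a := inl p) (b := inr q)).1
    (((R01 (a := inl p) (b := inr m)).2 h1).trans ((R12 (a := inl m) (b := inr q)).2 h2))

end Crest.Agent.R294
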