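import Crest.Agent.R294.Sem

/-!
Separation for deterministic machines, and the small machine for liveness.
-/

namespace Crest.Agent.R294
open Relation Sum Crest.TwoWay

universe u v
variable {α : Type v} {σ : Type u}

def IsTop (a : Pt σ ⊕ Pt σ) : Prop := a = inl none ∨ a = inr none
def IsOut (a : Pt σ ⊕ Pt σ) : Prop := ∃ q, a = inl (some (inr q)) ∨ a = inr (some (inl q))

theorem tri (a : Pt σ ⊕ Pt σ) : IsTop a ∨ IsOut a ∨ ∃ q, Ent a q := by
  rcases a with (_ | q | q) | (_ | q | q)
  · exact Or.inl (Or.inl rfl)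
  · exact Or.inr (Or.inr ⟨q, Or.inl rfl⟩)
  · exact Or.inr (Or.inl ⟨q, Or.inl rfl⟩)
  · exact Or.inl (Or.inr rfl)
  · exact Or.inr (Or.inl ⟨q, Or.inr rfl⟩)
  · exact Or.inr (Or.inr ⟨q, Or.inr rfl⟩)

/-- structural facts on the diagram of a non-empty word of a deterministic machine -/
structure Nice (x : CD (Pt σ)) : Prop where
  sink : ∀ a b, x.r a b → IsOut a → b = a
  source : ∀ a b q, x.r a b → Ent b q → a = b
  top : ∀ a b, x.r a b → IsTop a → IsTop b
  toptop : ∀ a b, IsTop a → IsTop b → x.r a b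
  det : ∀ a b b', x.r a b → x.r a b' → IsTop b ∨ IsOut b → IsTop b' ∨ IsOut b' →
    b = b' ∨ (IsTop b ∧ IsTop b')

theorem Nice.sub {e x : CD (Pt σ)} (he : Nice e) (hx : Nice x) (h1 : e * x = x) (h2 : x * e = x)
    (hsub : e.Sub x) : x.Sub e := by
  intro a b hab
  rcases tri a with ha | ha | ⟨q, ha⟩
  · exact he.toptop _ _ ha (hx.top _ _ hab ha)
  · rw [hx.sink _ _ hab ha]; exact e.refl _
  · have fin : ∀ m, e.r a m → m ≠ a → e.r a b := by
      intro m hm hne
      rcases tri b with hb | hb | ⟨q', hb⟩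
      all_goals
        first
        | (rw [hx.source _ _ _ hab hb]; exact e.refl _)
        | (have hm' : IsTop m ∨ IsOut m := by
            rcases tri m with h | h | ⟨q', h⟩
            · exact Or.inl h
            · exact Or.inr h
            · exact absurd (he.source _ _ _ hm h).symm hne
           rcases hx.det a b m hab (hsub _ _ hm) (by tauto) hm' with rfl | ⟨k1, k2⟩
           · exact hm
           · exact e.trans hm (he.toptop _ _ k2 k1))
    rcases ha with rfl | rfl
    · rw [← h1] at hab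
      rcases first_cross_gen hab with h | ⟨m, hm⟩
      · exact h
      · exact fin _ hm (by simp)
    · have hab' : (e.flip * x.flip).r (inl (some (inr q))) b.swap := by
        rw [← CD.flip_mul, h2]
        simpa [CD.flip] using hab
      rcases first_cross_gen hab' with h | ⟨m, hm⟩
      · simpa [CD.flip] using h
      · exact fin (inl m) hm (by simp)

theorem CE.cases_src {M : TwoWayNFA α σ} {c : Cell α} {a b : Pt σ ⊕ Pt σ} (h : CE M c a b) :
    ((∃ q, Ent a q) ∨ (IsTop a ∧ IsTop b)) ∧ (IsTop b ∨ IsOut b) := by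
  cases h with
  | goL ha _ _ => exact ⟨Or.inl ⟨_, ha⟩, Or.inr ⟨_, Or.inl rfl⟩⟩
  | goR ha _ _ => exact ⟨Or.inl ⟨_, ha⟩, Or.inr ⟨_, Or.inr rfl⟩⟩
  | acc ha _ _ => exact ⟨Or.inl ⟨_, ha⟩, Or.inl (Or.inl rfl)⟩
  | topR => exact ⟨Or.inr ⟨Or.inl rfl, Or.inr rfl⟩, Or.inl (Or.inr rfl)⟩
  | topL => exact ⟨Or.inr ⟨Or.inr rfl, Or.inl rfl⟩, Or.inl (Or.inl rfl)⟩

theorem CE.det {M : TwoWayNFA α σ} (hd : M.IsDeterministic)
    (hacc : ∀ q ∈ M.accept, ∀ c p, p ∉ M.step q c) {c : Cell α} {a b b' : Pt σ ⊕ Pt σ} {q : σ}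
    (ha : Ent a q) (h : CE M c a b) (h' : CE M c a b') : b = b' := by
  have hru : Relator.RightUnique (St M c) := by
    intro s t t' k1 k2
    exact congrArg Prod.fst (hd s c k1 k2)
  -- each edge from an entry ends a maximal run of stay moves
  have key : ∀ {b}, CE M c a b → ∃ q', ReflTransGen (St M c) q q' ∧ (∀ t, ¬ St M c q' t) ∧
      ((∃ q'', (q'', HeadMove.moveLeft) ∈ M.step q' c ∧ b = inl (some (inr q''))) ∨
       (∃ q'', (q'', HeadMove.moveRight) ∈ M.step q' c ∧ b = inr (some (inl q''))) ∨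
       (q' ∈ M.accept ∧ b = inl none)) := by
    have hq : ∀ {q0}, Ent a q0 → q0 = q := by
      intro q0 h0
      rcases ha with rfl | rfl <;> rcases h0 with h0 | h0 <;> simp_all
    intro b hb
    cases hb with
    | goL k1 k2 k3 =>
      obtain rfl := hq k1
      exact ⟨_, k2, fun t ht => by simpa using hd _ c k3 ht, Or.inl ⟨_, k3, rfl⟩⟩
    | goR k1 k2 k3 =>
      obtain rfl := hq k1
      exact ⟨_, k2, fun t ht => by simpa using hd _ c k3 ht, Or.inr (Or.inl ⟨_, k3, rfl⟩)⟩
    | acc k1 k2 k3 =>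
      obtain rfl := hq k1
      exact ⟨_, k2, fun t ht => hacc _ k3 c _ ht, Or.inr (Or.inr ⟨k3, rfl⟩)⟩
    | topR => rcases ha with ha | ha <;> simp at ha
    | topL => rcases ha with ha | ha <;> simp at ha
  obtain ⟨q1, k1, k2, k3⟩ := key h
  obtain ⟨q2, l1, l2, l3⟩ := key h'
  obtain rfl : q1 = q2 := by
    rcases ReflTransGen.total_of_right_unique hru k1 l1 with t | t
    · exact ((reflTransGen_iff_eq k2).1 t).symm
    · exact (reflTransGen_iff_eq l2).1 t
  rcases k3 with ⟨s, s1, rfl⟩ | ⟨s, s1, rfl⟩ | ⟨s1, rfl⟩ <;>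
    rcases l3 with ⟨t, t1, rfl⟩ | ⟨t, t1, rfl⟩ | ⟨t1, rfl⟩
  all_goals first
    | rfl
    | exact absurd s1 (hacc _ t1 _ _)
    | exact absurd t1 (hacc _ s1 _ _)
    | (have := hd _ c s1 t1; simp_all)

theorem nice_dia {M : TwoWayNFA α σ} (hd : M.IsDeterministic)
    (hacc : ∀ q ∈ M.accept, ∀ c p, p ∉ M.step q c) {w : List α} (hw : w ≠ []) :
    Nice (dia M w) := by
  obtain ⟨n, F, hF, hF', hiff⟩ : ∃ (n : ℕ) (F : ℕ → Dg (Pt σ)),
      (∀ k, k ≤ n → ∃ c, F k = CE M c) ∧ (∀ k, n < k → ∀ a b, ¬ F k a b) ∧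
      ∀ a b, (dia M w).r a b ↔ Reach F (at2 0 (n + 1) a) (at2 0 (n + 1) b) := by
    obtain ⟨c, t, rfl⟩ := List.exists_cons_of_ne_nil hw
    refine ⟨t.length, seqL ((c :: t).map fun a => CE M (Cell.letter a)), ?_, ?_, ?_⟩
    · intro k hk
      have hk' : k < (c :: t).length := by simp; omega
      refine ⟨Cell.letter ((c :: t)[k]), ?_⟩
      simp only [seqL, List.getD_eq_getElem?_getD, List.getElem?_map,
        List.getElem?_eq_getElem hk']
      rfl
    · intro k hk a b
      simp only [seqL, List.getD_eq_getElem?_getD]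
      rw [List.getElem?_eq_none (by simp; omega)]
      exact id
    · intro a b
      have := glue_cons (t.map fun a => CE M (Cell.letter a)) (CE M (Cell.letter c)) a b
      rw [List.length_map] at this
      exact this
  have hed : ∀ {s t}, GE F s t → ∃ k a b c, k ≤ n ∧ F k = CE M c ∧ CE M c a b ∧
      s = at2 k (k + 1) a ∧ t = at2 k (k + 1) b := by
    rintro _ _ ⟨k, a, b, hk, rfl, rfl⟩
    have hkn : k ≤ n := by
      by_contra h
      exact hF' k (by omega) a b hk
    obtain ⟨c, hc⟩ := hF k hkn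
    exact ⟨k, a, b, c, hkn, hc, hc ▸ hk, rfl, rfl⟩
  have htop : ∀ {s t}, Reach F s t → s.2 = none → t.2 = none := by
    intro s t h hs
    induction h with
    | refl => exact hs
    | tail _ he ih =>
      obtain ⟨k, a, b, c, -, -, hab, rfl, rfl⟩ := hed he
      rcases hab.cases_src.1 with ⟨q, rfl | rfl⟩ | ⟨-, rfl | rfl⟩
      · simp at ih
      · simp at ih
      · rfl
      · rfl
  have hsink : ∀ a, IsOut a → ∀ t, ¬ GE F (at2 0 (n + 1) a) t := by
    intro a ha t he
    obtain ⟨k, a', b, c, hk, -, hab, h1, -⟩ := hed he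
    obtain ⟨q, rfl | rfl⟩ := ha <;>
      rcases hab.cases_src.1 with ⟨q, rfl | rfl⟩ | ⟨rfl | rfl, -⟩ <;> simp at h1 <;> omega
  have hdet1 : ∀ {s t t'}, s.2 ≠ none → GE F s t → GE F s t' → t = t' := by
    intro s t t' hs he he'
    obtain ⟨k, a, b, c, hk, hc, hab, h1, rfl⟩ := hed he
    obtain ⟨k', a', b', c', hk', hc', hab', h1', rfl⟩ := hed he'
    have hka : k = k' ∧ a = a' ∧ ∃ q, Ent a q := by
      rw [h1] at h1' hs
      rcases hab.cases_src.1 with ⟨q, rfl | rfl⟩ | ⟨rfl | rfl, -⟩ <;>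
        rcases hab'.cases_src.1 with ⟨q', rfl | rfl⟩ | ⟨rfl | rfl, -⟩ <;>
        simp_all [Ent]
    obtain ⟨rfl, rfl, q, hq⟩ := hka
    rw [← hc', hc] at hab'
    rw [hab.det hd hacc hq hab']
  have istop : ∀ a : Pt σ ⊕ Pt σ, IsTop a ↔ (at2 0 (n + 1) a).2 = none := by
    rintro (a | a) <;> simp [IsTop]
  refine ⟨?_, ?_, ?_, ?_, ?_⟩
  · intro a b hab ha
    rw [hiff] at hab
    exact at2_inj (by omega) ((reflTransGen_iff_eq (hsink a ha)).1 hab)
  · intro a b q hab hb
    rw [hiff] at hab
    rcases hab.cases_tail with h | ⟨s, -, he⟩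
    · exact (at2_inj (by omega) h).symm
    · exfalso
      obtain ⟨k, a', b', c, hk, -, hab2, -, h1⟩ := hed he
      rcases hb with rfl | rfl <;>
        rcases hab2.cases_src.2 with (rfl | rfl) | ⟨q, rfl | rfl⟩ <;> simp at h1 <;> omega
  · intro a b hab ha
    rw [hiff] at hab
    rw [istop] at ha ⊢
    exact htop hab ha
  · have up : ∀ i, i ≤ n + 1 → Reach F (i, none) (0, none) ∧ Reach F (0, none) (i, none) := by
      intro i
      induction i with
      | zero => exact fun _ => ⟨Reach.refl _ _, Reach.refl _ _⟩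
      | succ i ih =>
        intro h
        obtain ⟨c, hc⟩ := hF i (by omega)
        have e1 : F i (inr none) (inl none) := hc ▸ CE.topL
        have e2 : F i (inl none) (inr none) := hc ▸ CE.topR
        exact ⟨(Reach.edge (F := F) i e1).trans (ih (by omega)).1,
          (ih (by omega)).2.trans (Reach.edge (F := F) i e2)⟩
    rintro a b (rfl | rfl) (rfl | rfl) <;> rw [hiff]
    · exact (up _ le_rfl).2
    · exact (up _ le_rfl).1
  · intro a b b' hab hab' hb hb'
    rw [hiff] at hab hab'
    have key : ∀ s, Reach F s (at2 0 (n + 1) b) → Reach F s (at2 0 (n + 1) b') →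
        b = b' ∨ (IsTop b ∧ IsTop b') := by
      intro s hs
      induction hs using ReflTransGen.head_induction_on with
      | refl =>
        intro h
        rcases hb with hb | hb
        · exact Or.inr ⟨hb, (istop _).2 (htop h ((istop _).1 hb))⟩
        · exact Or.inl (at2_inj (by omega) ((reflTransGen_iff_eq (hsink b hb)).1 h)).symm
      | @head s s' he hs ih =>
        intro h
        by_cases hs2 : s.2 = none
        · exact Or.inr ⟨(istop _).2 (htop (hs.head he) hs2), (istop _).2 (htop h hs2)⟩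
        · rcases h.cases_head with h | ⟨s'', he', h⟩
          · subst h
            rcases hb' with hb' | hb'
            · exact absurd ((istop _).1 hb') hs2
            · exact absurd he (hsink _ hb' _)
          · rw [← hdet1 hs2 he he'] at h
            exact ih h
    exact key _ hab hab'

/-- stop at accepting states -/
def halting (M : TwoWayNFA α σ) : TwoWayNFA α σ :=
  { M with step := fun q c => {p | p ∈ M.step q c ∧ q ∉ M.accept} }

theorem halting_accepts (M : TwoWayNFA α σ) (w : List α) :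
    (halting M).Accepts w ↔ M.Accepts w := by
  constructor
  · rintro ⟨c, hc, hacc⟩
    refine ⟨c, rt_mono ?_ hc, hacc⟩
    rintro a b ⟨m, hm, hp⟩
    exact .single ⟨m, hm.1, hp⟩
  · rintro ⟨c, hc, hacc⟩
    have key : ∀ c, ReflTransGen (M.Step w) (M.start, 0) c →
        (halting M).Accepts w ∨ ReflTransGen ((halting M).Step w) (M.start, 0) c := by
      intro c hc
      induction hc with
      | refl => exact Or.inr .refl
      | @tail c d _ hstep ih =>
        rcases ih with h | h
        · exact Or.inl h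
        · by_cases hq : c.1 ∈ M.accept
          · exact Or.inl ⟨c, h, hq⟩
          · obtain ⟨m, hm, hp⟩ := hstep
            exact Or.inr (h.tail ⟨m, ⟨hm, hq⟩, hp⟩)
    rcases key c hc with h | h
    · exact h
    · exact ⟨c, h, hacc⟩

theorem det_bound {h : ℕ} [Fintype σ] (hh : 2 ≤ h) (M : TwoWayNFA (Fin h → Fin h → Bool) σ)
    (hd : M.IsDeterministic) (hM : M.language = liveness h) :
    2 ^ ((h - 2) / 31) ≤ 2 * Fintype.card σ + 1 := by
  rw [← card_Pt]
  refine Sys.bound hh (mkSys (halting M) ?_)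
  intro w w' hw hw' h1 h2 hsub a b hab
  have hd' : (halting M).IsDeterministic := fun q c p hp p' hp' => hd q c hp.1 hp'.1
  have hacc' : ∀ q ∈ (halting M).accept, ∀ c p, p ∉ (halting M).step q c :=
    fun q hq c p hp => hp.2 hq
  have hsub' := (nice_dia hd' hacc' hw).sub (nice_dia hd' hacc' hw') h1 h2 hsub
  have hacc : ∀ t, (halting M).Accepts t ↔ t ∈ liveness h := fun t => by
    rw [halting_accepts]
    change t ∈ M.language ↔ _
    rw [hM]
  rw [← live_iff, ← hacc] at hab ⊢
  exact accepts_mono _ hsub' _ _ hab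

/-- the one-way machine for liveness: state `0` starts, state `1` accepts, state `i + 2` follows
the point `i` -/
def liveNFA (h m : ℕ) (hm : h + 2 ≤ m) : TwoWayNFA (Fin h → Fin h → Bool) (Fin m) where
  start := ⟨0, by omega⟩
  accept := {q | q.val = 1}
  step q c := match c with
    | Cell.leftEnd => {p | q.val = 0 ∧ (∃ j : Fin h, p.1.val = j.val + 2) ∧ p.2 = HeadMove.moveRight}
    | Cell.letter R => {p | (∃ i j : Fin h, q.val = i.val + 2 ∧ p.1.val = j.val + 2 ∧ R i j = true)
        ∧ p.2 = HeadMove.moveRight}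
    | Cell.rightEnd => {p | (∃ i : Fin h, q.val = i.val + 2) ∧ p.1.val = 1 ∧ p.2 = HeadMove.stay}

theorem liveNFA_noLeft (h m : ℕ) (hm : h + 2 ≤ m) : (liveNFA h m hm).NoLeftMoves := by
  intro q c p hp
  cases c with
  | leftEnd => rw [hp.2.2]; simp
  | letter R => rw [hp.2]; simp
  | rightEnd => rw [hp.2.2]; simp

theorem rho_take_succ {h : ℕ} (w : List (Fin h → Fin h → Bool)) (t : ℕ) (ht : t < w.length)
    (a c : Fin h) :
    (rho (w.take (t + 1))).r a c ↔ ∃ b, (rho (w.take t)).r a b ∧ w[t] b c = true := by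
  rw [List.take_succ_eq_append_getElem ht, rho_append, rho_single]
  rfl

theorem liveNFA_language (h m : ℕ) (hm : h + 2 ≤ m) : (liveNFA h m hm).language = liveness h := by
  ext w
  have e : w ∈ liveness h ↔ ∃ c d, (rho w).r c d := Iff.rfl
  have hscan : ∀ t (ht : t < w.length), scan w (t + 1) = Cell.letter w[t] := by
    intro t ht
    simp [scan, List.getElem?_eq_getElem ht]
  have hend : scan w (w.length + 1) = Cell.rightEnd := by simp [scan]
  rw [e]
  constructor
  · rintro ⟨c, hc, hacc⟩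
    have key : ∀ c, ReflTransGen ((liveNFA h m hm).Step w) ((liveNFA h m hm).start, 0) c →
        (c.1.val = 0 ∧ c.2 = 0) ∨
        (∃ t, c.2 = t + 1 ∧ t ≤ w.length ∧
          ∃ a b : Fin h, c.1.val = b.val + 2 ∧ (rho (w.take t)).r a b) ∨
        (c.1.val = 1 ∧ ∃ c d, (rho w).r c d) := by
      intro c hc
      induction hc with
      | refl => exact Or.inl ⟨rfl, rfl⟩
      | @tail c d _ hstep ih =>
        obtain ⟨q, i⟩ := c
        obtain ⟨q', j⟩ := d
        obtain ⟨mv, hmv, hpos⟩ := hstep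
        simp only at ih hmv hpos ⊢
        rcases ih with ⟨h0, rfl⟩ | ⟨t, rfl, ht, a, b, hb, hab⟩ | ⟨h1, -⟩
        · obtain ⟨-, ⟨b, hb⟩, rfl⟩ : q.val = 0 ∧ (∃ j : Fin h, q'.val = j.val + 2) ∧
            mv = HeadMove.moveRight := hmv
          obtain rfl : 0 + 1 = j := by simpa [movePos] using hpos
          exact Or.inr (Or.inl ⟨0, rfl, by omega, b, b, hb, rfl⟩)
        · rcases Nat.lt_or_eq_of_le ht with ht' | rfl
          · rw [hscan t ht'] at hmv
            obtain ⟨⟨i, j', hi, hj, hR⟩, rfl⟩ := hmv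
            obtain rfl : b = i := Fin.ext (by omega)
            have : ¬ w.length + 1 ≤ t + 1 := by omega
            simp only [movePos, this, if_false, Option.some.injEq] at hpos
            subst hpos
            exact Or.inr (Or.inl ⟨t + 1, rfl, ht', a, j', hj,
              (rho_take_succ w t ht' a j').2 ⟨b, hab, hR⟩⟩)
          · rw [hend] at hmv
            rw [List.take_length] at hab
            exact Or.inr (Or.inr ⟨hmv.2.1, a, b, hab⟩)
        · exfalso
          cases hs : scan w i with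
          | leftEnd => rw [hs] at hmv; have := hmv.1; omega
          | letter R => rw [hs] at hmv; obtain ⟨⟨i, j, h2, -⟩, -⟩ := hmv; omega
          | rightEnd => rw [hs] at hmv; obtain ⟨⟨i, h2⟩, -⟩ := hmv; omega
    have hacc' : c.1.val = 1 := hacc
    rcases key c hc with ⟨h0, -⟩ | ⟨t, -, -, a, b, hb, -⟩ | ⟨-, h1⟩
    · omega
    · omega
    · exact h1
  · rintro ⟨a, b, hab⟩
    have key : ∀ t, t ≤ w.length → ∀ b : Fin h, (rho (w.take t)).r a b →
        ReflTransGen ((liveNFA h m hm).Step w) ((liveNFA h m hm).start, 0)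
          (⟨b.val + 2, by omega⟩, t + 1) := by
      intro t
      induction t with
      | zero =>
        intro _ b _
        refine .single ⟨HeadMove.moveRight, ?_, by simp [movePos]⟩
        exact ⟨rfl, ⟨b, rfl⟩, rfl⟩
      | succ t ih =>
        intro ht c hc
        obtain ⟨b, hb, hR⟩ := (rho_take_succ w t ht a c).1 hc
        refine (ih (by omega) b hb).tail ⟨HeadMove.moveRight, ?_, ?_⟩
        · simp only [hscan t ht]
          exact ⟨⟨b, c, rfl, rfl, hR⟩, rfl⟩
        · have : ¬ w.length + 1 ≤ t + 1 := by omega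
          simp only [movePos, this, if_false]
    refine ⟨(⟨1, by omega⟩, w.length + 1),
      (key _ le_rfl b (by rwa [List.take_length])).tail ⟨HeadMove.stay, ?_, rfl⟩, rfl⟩
    simp only [hend]
    exact ⟨⟨b, rfl⟩, rfl, rfl⟩

end Crest.Agent.R294
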