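import Mathlib

/-!
Two-sided reachability diagrams: a diagram is a relation on two copies (left, right) of a set of
boundary points; diagrams are multiplied by gluing and taking the reachability closure.
-/

namespace Crest.Agent.R294
open Relation Sum

universe u
variable {P : Type u}

theorem rt_lift {A V : Type*} {r : A → A → Prop} {s : V → V → Prop} (f : A → V)
    (h : ∀ a b, r a b → ReflTransGen s (f a) (f b)) {a b : A} (hab : ReflTransGen r a b) :
    ReflTransGen s (f a) (f b) := by
  induction hab with
  | refl => exact .refl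
  | tail _ h2 ih => exact ih.trans (h _ _ h2)

theorem rt_mono {A : Type*} {r s : A → A → Prop}
    (h : ∀ a b, r a b → ReflTransGen s a b) {a b : A} (hab : ReflTransGen r a b) :
    ReflTransGen s a b := rt_lift id h hab

/-- raw diagrams -/
abbrev Dg (P : Type u) := P ⊕ P → P ⊕ P → Prop

/-- place the left copy at layer `i` and the right copy at layer `j` -/
def at2 (i j : ℕ) : P ⊕ P → ℕ × P
  | inl p => (i, p)
  | inr p => (j, p)

@[simp] theorem at2_inl (i j : ℕ) (p : P) : at2 i j (inl p) = (i, p) := rfl
@[simp] theorem at2_inr (i j : ℕ) (p : P) : at2 i j (inr p) = (j, p) := rfl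

theorem at2_inj {i j : ℕ} (h : i ≠ j) {a b : P ⊕ P} (hab : at2 i j a = at2 i j b) : a = b := by
  cases a <;> cases b <;> simp_all

/-- edges of the layered graph of a sequence of diagrams -/
def GE (F : ℕ → Dg P) (u v : ℕ × P) : Prop :=
  ∃ k a b, F k a b ∧ u = at2 k (k + 1) a ∧ v = at2 k (k + 1) b

/-- reachability in the layered graph -/
abbrev Reach (F : ℕ → Dg P) : ℕ × P → ℕ × P → Prop := ReflTransGen (GE F)

theorem Reach.refl (F : ℕ → Dg P) (u : ℕ × P) : Reach F u u := ReflTransGen.refl
theorem Reach.trans {F : ℕ → Dg P} {u v w : ℕ × P} (h1 : Reach F u v) (h2 : Reach F v w) :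
    Reach F u w := ReflTransGen.trans h1 h2
theorem Reach.edge {F : ℕ → Dg P} (k : ℕ) {a b : P ⊕ P} (h : F k a b) :
    Reach F (at2 k (k + 1) a) (at2 k (k + 1) b) := ReflTransGen.single ⟨k, a, b, h, rfl, rfl⟩

def seq2 (x y : Dg P) : ℕ → Dg P
  | 0 => x
  | 1 => y
  | _ + 2 => fun _ _ => False

/-- the raw product of diagrams -/
def mulR (x y : Dg P) : Dg P := fun a b => Reach (seq2 x y) (at2 0 2 a) (at2 0 2 b)

/-- collapse blocks `n` and `n+1` -/
def coll (F : ℕ → Dg P) (n : ℕ) : ℕ → Dg P := fun k =>
  if k < n then F k else if k = n then mulR (F n) (F (n + 1)) else F (k + 1)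

def sig (n : ℕ) (u : ℕ × P) : ℕ × P := (if u.1 ≤ n then u.1 else u.1 + 1, u.2)

theorem sig_inj (n : ℕ) {u v : ℕ × P} (h : sig n u = sig n v) : u = v := by
  obtain ⟨i, p⟩ := u
  obtain ⟨j, q⟩ := v
  simp only [sig, Prod.mk.injEq] at h ⊢
  obtain ⟨h1, h2⟩ := h
  refine ⟨?_, h2⟩
  split_ifs at h1 <;> omega

theorem sig_lt {n k : ℕ} (h : k < n) (a : P ⊕ P) :
    sig n (at2 k (k + 1) a) = at2 k (k + 1) a := by
  cases a <;> simp [sig] <;> omega

theorem sig_gt {n k : ℕ} (h : n < k) (a : P ⊕ P) :
    sig n (at2 k (k + 1) a) = at2 (k + 1) (k + 1 + 1) a := by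
  cases a <;> simp [sig] <;> omega

theorem sig_eq (n : ℕ) (a : P ⊕ P) :
    sig n (at2 n (n + 1) a) = at2 n (n + 2) a := by
  cases a <;> simp [sig]

theorem reach_shift (F : ℕ → Dg P) (n : ℕ) {u v : ℕ × P}
    (h : Reach (seq2 (F n) (F (n + 1))) u v) : Reach F (u.1 + n, u.2) (v.1 + n, v.2) := by
  refine rt_lift (fun u : ℕ × P => (u.1 + n, u.2)) ?_ h
  rintro _ _ ⟨k, a, b, hk, rfl, rfl⟩
  match k, hk with
  | 0, hk =>
    have := Reach.edge (F := F) n hk
    cases a <;> cases b <;> simpa [Nat.add_comm] using this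
  | 1, hk =>
    have := Reach.edge (F := F) (n + 1) hk
    cases a <;> cases b <;> simpa [Nat.add_comm, Nat.add_left_comm] using this
  | _ + 2, hk => exact hk.elim

theorem collapse (F : ℕ → Dg P) (n : ℕ) (u v : ℕ × P) :
    Reach F (sig n u) (sig n v) ↔ Reach (coll F n) u v := by
  constructor
  · intro h
    have key : ∀ w, Reach F (sig n u) w →
        (∃ v, w = sig n v ∧ Reach (coll F n) u v) ∨
        (w.1 = n + 1 ∧ ∃ a, Reach (coll F n) u (at2 n (n + 1) a) ∧
          Reach (seq2 (F n) (F (n + 1))) (at2 0 2 a) (1, w.2)) := by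
      intro w hw
      induction hw with
      | refl => exact Or.inl ⟨u, rfl, Reach.refl _ _⟩
      | @tail w w' _ hedge ih =>
        obtain ⟨k, a, b, hk, rfl, rfl⟩ := hedge
        rcases lt_trichotomy k n with hkn | hkn | hkn
        · left
          rcases ih with ⟨v, hv, hr⟩ | ⟨h1, _⟩
          · rw [← sig_lt hkn] at hv
            obtain rfl := sig_inj n hv
            refine ⟨_, (sig_lt hkn b).symm, hr.trans (Reach.edge k ?_)⟩
            simpa [coll, hkn] using hk
          · cases a <;> simp at h1 <;> omega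
        · subst hkn
          -- local start
          have h0 : ∃ c, Reach (coll F k) u (at2 k (k + 1) c) ∧
              Reach (seq2 (F k) (F (k + 1))) (at2 0 2 c) (at2 0 1 a) := by
            rcases ih with ⟨v, hv, hr⟩ | ⟨h1, c, hc1, hc2⟩
            · cases a with
              | inl p =>
                have : sig k (at2 k (k + 1) (inl p)) = sig k v := by rw [sig_eq, ← hv]; rfl
                obtain rfl := sig_inj k this
                exact ⟨inl p, hr, Reach.refl _ _⟩
              | inr p =>
                exfalso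
                simp only [at2_inr, sig, Prod.mk.injEq] at hv
                have := hv.1
                split_ifs at this <;> omega
            · cases a with
              | inl p => simp at h1
              | inr p => exact ⟨c, hc1, hc2⟩
          obtain ⟨c, hc1, hc2⟩ := h0
          have hc3 : Reach (seq2 (F k) (F (k + 1))) (at2 0 2 c) (at2 0 1 b) :=
            hc2.trans (Reach.edge (F := seq2 (F k) (F (k + 1))) 0 hk)
          cases b with
          | inl q =>
            left
            refine ⟨at2 k (k + 1) (inl q), (by rw [sig_eq]; rfl), hc1.trans (Reach.edge k ?_)⟩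
            simpa [coll, mulR] using hc3
          | inr q => exact Or.inr ⟨rfl, c, hc1, hc3⟩
        · rcases Nat.lt_or_ge (n + 1) k with hk2 | hk2
          · left
            obtain ⟨k, rfl⟩ : ∃ k', k = k' + 1 := ⟨k - 1, by omega⟩
            have hkn' : n < k := by omega
            rcases ih with ⟨v, hv, hr⟩ | ⟨h1, _⟩
            · rw [← sig_gt hkn'] at hv
              obtain rfl := sig_inj n hv
              refine ⟨_, (sig_gt hkn' b).symm, hr.trans (Reach.edge k ?_)⟩
              have h1 : ¬ k < n := by omega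
              have h2 : ¬ k = n := by omega
              simpa [coll, h1, h2] using hk
            · cases a <;> simp at h1 <;> omega
          · obtain rfl : k = n + 1 := by omega
            have h0 : ∃ c, Reach (coll F n) u (at2 n (n + 1) c) ∧
                Reach (seq2 (F n) (F (n + 1))) (at2 0 2 c) (at2 1 2 a) := by
              rcases ih with ⟨v, hv, hr⟩ | ⟨h1, c, hc1, hc2⟩
              · cases a with
                | inr p =>
                  have : sig n (at2 n (n + 1) (inr p)) = sig n v := by rw [sig_eq, ← hv]; rfl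
                  obtain rfl := sig_inj n this
                  exact ⟨inr p, hr, Reach.refl _ _⟩
                | inl p =>
                  exfalso
                  simp only [at2_inl, sig, Prod.mk.injEq] at hv
                  have := hv.1
                  split_ifs at this <;> omega
              · cases a with
                | inr p => simp at h1
                | inl p => exact ⟨c, hc1, hc2⟩
            obtain ⟨c, hc1, hc2⟩ := h0
            have hc3 : Reach (seq2 (F n) (F (n + 1))) (at2 0 2 c) (at2 1 2 b) :=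
              hc2.trans (Reach.edge (F := seq2 (F n) (F (n + 1))) 1 hk)
            cases b with
            | inr q =>
              left
              refine ⟨at2 n (n + 1) (inr q), (by rw [sig_eq]; rfl), hc1.trans (Reach.edge n ?_)⟩
              simpa [coll, mulR] using hc3
            | inl q => exact Or.inr ⟨rfl, c, hc1, hc3⟩
    rcases key _ h with ⟨v', hv, hr⟩ | ⟨h1, _⟩
    · rwa [sig_inj n hv]
    · exfalso
      simp only [sig] at h1
      split_ifs at h1 <;> omega
  · intro h
    refine rt_lift (sig n) ?_ h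
    rintro _ _ ⟨k, a, b, hk, rfl, rfl⟩
    rcases lt_trichotomy k n with hkn | hkn | hkn
    · rw [sig_lt hkn, sig_lt hkn]
      refine Reach.edge k ?_
      simpa [coll, hkn] using hk
    · subst hkn
      rw [sig_eq, sig_eq]
      have h1 : mulR (F k) (F (k + 1)) a b := by simpa [coll] using hk
      have := reach_shift F k h1
      cases a <;> cases b <;> simpa [Nat.add_comm] using this
    · rw [sig_gt hkn, sig_gt hkn]
      refine Reach.edge (k + 1) ?_
      have h1 : ¬ k < n := by omega
      have h2 : ¬ k = n := by omega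
      simpa [coll, h1, h2] using hk

def seq3 (x y z : Dg P) : ℕ → Dg P
  | 0 => x
  | 1 => y
  | 2 => z
  | _ + 3 => fun _ _ => False

def seq4 (x y z w : Dg P) : ℕ → Dg P
  | 0 => x
  | 1 => y
  | 2 => z
  | 3 => w
  | _ + 4 => fun _ _ => False

theorem coll3_0 (x y z : Dg P) : coll (seq3 x y z) 0 = seq2 (mulR x y) z := by
  funext k
  match k with
  | 0 => rfl
  | 1 => rfl
  | _ + 2 => rfl

theorem coll3_1 (x y z : Dg P) : coll (seq3 x y z) 1 = seq2 x (mulR y z) := by
  funext k
  match k with
  | 0 => rfl
  | 1 => rfl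
  | _ + 2 => rfl

theorem coll4_0 (x y z w : Dg P) : coll (seq4 x y z w) 0 = seq3 (mulR x y) z w := by
  funext k
  match k with
  | 0 => rfl
  | 1 => rfl
  | 2 => rfl
  | _ + 3 => rfl

theorem coll4_1 (x y z w : Dg P) : coll (seq4 x y z w) 1 = seq3 x (mulR y z) w := by
  funext k
  match k with
  | 0 => rfl
  | 1 => rfl
  | 2 => rfl
  | _ + 3 => rfl

theorem coll4_2 (x y z w : Dg P) : coll (seq4 x y z w) 2 = seq3 x y (mulR z w) := by
  funext k
  match k with
  | 0 => rfl
  | 1 => rfl
  | 2 => rfl
  | _ + 3 => rfl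

theorem mulR_assoc (x y z : Dg P) : mulR (mulR x y) z = mulR x (mulR y z) := by
  funext a b
  have h1 := collapse (seq3 x y z) 0 (at2 0 2 a) (at2 0 2 b)
  have h2 := collapse (seq3 x y z) 1 (at2 0 2 a) (at2 0 2 b)
  rw [coll3_0] at h1
  rw [coll3_1] at h2
  have e : ∀ c : P ⊕ P, sig 0 (at2 0 2 c) = sig 1 (at2 0 2 c) := by
    intro c; cases c <;> rfl
  rw [e, e] at h1
  exact propext (h1.symm.trans h2)

theorem Reach.mono {F G : ℕ → Dg P} (h : ∀ k a b, F k a b → ReflTransGen (G k) a b) {u v : ℕ × P}
    (huv : Reach F u v) : Reach G u v := by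
  refine rt_mono ?_ huv
  rintro _ _ ⟨k, a, b, hk, rfl, rfl⟩
  exact rt_lift (at2 k (k + 1)) (fun c d hcd => Reach.edge k hcd) (h k a b hk)

theorem mulR_mono {x x' y y' : Dg P} (hx : ∀ a b, x a b → ReflTransGen x' a b)
    (hy : ∀ a b, y a b → ReflTransGen y' a b) (a b : P ⊕ P) (h : mulR x y a b) :
    mulR x' y' a b := by
  refine Reach.mono ?_ h
  intro k
  match k with
  | 0 => exact hx
  | 1 => exact hy
  | _ + 2 => exact fun _ _ h => h.elim

/-- closed diagrams: preorders on the two copies -/
@[ext] structure CD (P : Type u) where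
  r : Dg P
  refl : ∀ a, r a a
  trans : ∀ {a b c}, r a b → r b c → r a c

theorem CD.rt (x : CD P) {a b : P ⊕ P} (h : ReflTransGen x.r a b) : x.r a b := by
  induction h with
  | refl => exact x.refl _
  | tail _ h2 ih => exact x.trans ih h2

/-- the closure of a raw diagram -/
def CD.cl (x : Dg P) : CD P := ⟨ReflTransGen x, fun _ => .refl, ReflTransGen.trans⟩

instance : Mul (CD P) :=
  ⟨fun x y => ⟨mulR x.r y.r, fun _ => Reach.refl _ _, Reach.trans⟩⟩

instance : One (CD P) :=
  ⟨⟨fun a b => a.elim id id = b.elim id id, fun _ => rfl, Eq.trans⟩⟩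

theorem CD.mul_r (x y : CD P) : (x * y).r = mulR x.r y.r := rfl
theorem CD.one_r (a b : P ⊕ P) : (1 : CD P).r a b ↔ a.elim id id = b.elim id id := Iff.rfl

theorem CD.one_mul' (x : CD P) : 1 * x = x := by
  ext a b
  constructor
  · intro h
    have := rt_lift (r := GE (seq2 (1 : CD P).r x.r)) (s := x.r)
      (fun u : ℕ × P => if u.1 ≤ 1 then inl u.2 else inr u.2) ?_ h
    · cases a <;> cases b <;> simpa using x.rt this
    · rintro _ _ ⟨k, c, d, hk, rfl, rfl⟩
      match k, hk with
      | 0, hk =>
        have : c.elim id id = d.elim id id := hk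
        cases c <;> cases d <;> simp_all [ReflTransGen.refl]
      | 1, hk =>
        refine .single ?_
        cases c <;> cases d <;> simpa [seq2] using hk
      | _ + 2, hk => exact hk.elim
  · intro h
    have h1 : ∀ c : P ⊕ P, Reach (seq2 (1 : CD P).r x.r) (at2 0 2 c) (at2 1 2 c) ∧
        Reach (seq2 (1 : CD P).r x.r) (at2 1 2 c) (at2 0 2 c) := by
      rintro (p | p)
      · exact ⟨Reach.edge (F := seq2 (1 : CD P).r x.r) 0 (a := inl p) (b := inr p) rfl,
          Reach.edge (F := seq2 (1 : CD P).r x.r) 0 (a := inr p) (b := inl p) rfl⟩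
      · exact ⟨Reach.refl _ _, Reach.refl _ _⟩
    exact (h1 a).1.trans ((Reach.edge (F := seq2 (1 : CD P).r x.r) 1 h).trans (h1 b).2)

theorem CD.mul_one' (x : CD P) : x * 1 = x := by
  ext a b
  constructor
  · intro h
    have := rt_lift (r := GE (seq2 x.r (1 : CD P).r)) (s := x.r)
      (fun u : ℕ × P => if u.1 = 0 then inl u.2 else inr u.2) ?_ h
    · cases a <;> cases b <;> simpa using x.rt this
    · rintro _ _ ⟨k, c, d, hk, rfl, rfl⟩
      match k, hk with
      | 0, hk =>
        refine .single ?_
        cases c <;> cases d <;> simpa [seq2] using hk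
      | 1, hk =>
        have : c.elim id id = d.elim id id := hk
        cases c <;> cases d <;> simp_all [ReflTransGen.refl]
      | _ + 2, hk => exact hk.elim
  · intro h
    have h1 : ∀ c : P ⊕ P, Reach (seq2 x.r (1 : CD P).r) (at2 0 2 c) (at2 0 1 c) ∧
        Reach (seq2 x.r (1 : CD P).r) (at2 0 1 c) (at2 0 2 c) := by
      rintro (p | p)
      · exact ⟨Reach.refl _ _, Reach.refl _ _⟩
      · exact ⟨Reach.edge (F := seq2 x.r (1 : CD P).r) 1 (a := inr p) (b := inl p) rfl,
          Reach.edge (F := seq2 x.r (1 : CD P).r) 1 (a := inl p) (b := inr p) rfl⟩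
    exact (h1 a).1.trans ((Reach.edge (F := seq2 x.r (1 : CD P).r) 0 h).trans (h1 b).2)

instance : Monoid (CD P) where
  mul_assoc x y z := CD.ext (mulR_assoc _ _ _)
  one_mul := CD.one_mul'
  mul_one := CD.mul_one'

instance [Finite P] : Finite (CD P) :=
  Finite.of_injective (fun x : CD P => x.r) (fun _ _ h => CD.ext h)

/-- inclusion of diagrams -/
def CD.Sub (x y : CD P) : Prop := ∀ a b, x.r a b → y.r a b

theorem CD.Sub.rfl (x : CD P) : x.Sub x := fun _ _ h => h

theorem CD.Sub.mul {x x' y y' : CD P} (hx : x.Sub x') (hy : y.Sub y') : (x * y).Sub (x' * y') :=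
  mulR_mono (fun a b h => .single (hx a b h)) (fun a b h => .single (hy a b h))

theorem CD.cl_mul (x y : Dg P) : CD.cl x * CD.cl y = CD.cl (mulR x y) := by
  ext a b
  constructor
  · intro h
    exact .single (mulR_mono (fun _ _ h => h) (fun _ _ h => h) a b h)
  · intro h
    refine CD.rt _ (rt_mono ?_ h)
    intro c d hcd
    exact .single (mulR_mono (fun _ _ h => .single (.single h)) (fun _ _ h => .single (.single h))
      c d hcd)

/-- left-right mirror image -/
def CD.flip (x : CD P) : CD P := ⟨fun a b => x.r a.swap b.swap, fun _ => x.refl _, x.trans⟩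

@[simp] theorem CD.flip_flip (x : CD P) : x.flip.flip = x := by
  ext a b; simp [CD.flip]

theorem CD.flip_mul_sub (x y : CD P) : (x * y).flip.Sub (y.flip * x.flip) := by
  intro a b h
  have := rt_lift (r := GE (seq2 x.r y.r)) (s := GE (seq2 y.flip.r x.flip.r))
    (fun u : ℕ × P => (2 - u.1, u.2)) ?_ h
  · cases a <;> cases b <;> exact this
  · rintro _ _ ⟨k, c, d, hk, rfl, rfl⟩
    match k, hk with
    | 0, hk =>
      have := Reach.edge (F := seq2 y.flip.r x.flip.r) 1 (a := c.swap) (b := d.swap)
        (by simpa [seq2, CD.flip] using hk)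
      cases c <;> cases d <;> exact this
    | 1, hk =>
      have := Reach.edge (F := seq2 y.flip.r x.flip.r) 0 (a := c.swap) (b := d.swap)
        (by simpa [seq2, CD.flip] using hk)
      cases c <;> cases d <;> exact this
    | _ + 2, hk => exact hk.elim

theorem CD.flip_mul (x y : CD P) : (x * y).flip = y.flip * x.flip := by
  ext a b
  refine ⟨CD.flip_mul_sub x y a b, fun h => ?_⟩
  have := CD.flip_mul_sub y.flip x.flip a.swap b.swap (by simpa [CD.flip] using h)
  simpa [CD.flip] using this

@[simp] theorem CD.flip_one : (1 : CD P).flip = 1 := by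
  ext a b
  cases a <;> cases b <;> rfl

end Crest.Agent.R294
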