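import Crest.Agent.R294.Chain

/-!
The doubling recursion: a semigroup of diagrams that maps onto all binary relations on many
points, with a separation property, needs exponentially many boundary points.
-/

namespace Crest.Agent.R294

universe u

theorem exists_idem_pow {M : Type*} [Monoid M] [Finite M] (x : M) :
    ∃ n, 1 ≤ n ∧ x ^ n * x ^ n = x ^ n := by
  obtain ⟨i, j, hij, h⟩ := Finite.exists_ne_map_eq_of_infinite (fun n : ℕ => x ^ n)
  wlog hlt : i < j generalizing i j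
  · exact this j i hij.symm h.symm (by omega)
  obtain ⟨d, rfl⟩ : ∃ d, j = i + (d + 1) := ⟨j - i - 1, by omega⟩
  have h1 : ∀ k, x ^ (i + k * (d + 1)) = x ^ i := by
    intro k
    induction k with
    | zero => simp
    | succ k ih =>
      have : i + (k + 1) * (d + 1) = (i + k * (d + 1)) + (d + 1) := by ring
      rw [this, pow_add, ih, ← pow_add]
      exact h.symm
  refine ⟨(i + 1) * (d + 1), Nat.mul_pos (by omega) (by omega), ?_⟩
  obtain ⟨m, hm⟩ : ∃ m, (i + 1) * (d + 1) = m + i := ⟨(i + 1) * (d + 1) - i, by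
    have : i + 1 ≤ (i + 1) * (d + 1) := Nat.le_mul_of_pos_right _ (by omega)
    omega⟩
  rw [← pow_add]
  calc x ^ ((i + 1) * (d + 1) + (i + 1) * (d + 1))
      = x ^ m * x ^ (i + (i + 1) * (d + 1)) := by rw [← pow_add]; congr 1; omega
    _ = x ^ ((i + 1) * (d + 1)) := by rw [h1, ← pow_add, hm]

theorem pow_of_idem {M : Type*} [Monoid M] {x : M} (h : x * x = x) {n : ℕ} (hn : 1 ≤ n) :
    x ^ n = x := by
  induction n, hn using Nat.le_induction with
  | base => simp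
  | succ n _ ih => rw [pow_succ, ih, h]

theorem mul_pow_left {M : Type*} [Monoid M] {e x : M} (h : e * x = x) {n : ℕ} (hn : 1 ≤ n) :
    e * x ^ n = x ^ n := by
  obtain ⟨m, rfl⟩ : ∃ m, n = m + 1 := ⟨n - 1, by omega⟩
  rw [pow_succ', ← mul_assoc, h]

theorem mul_pow_right {M : Type*} [Monoid M] {e x : M} (h : x * e = x) {n : ℕ} (hn : 1 ≤ n) :
    x ^ n * e = x ^ n := by
  obtain ⟨m, rfl⟩ : ∃ m, n = m + 1 := ⟨n - 1, by omega⟩
  rw [pow_succ, mul_assoc, h]

theorem Cov.pow {P : Type u} {e x : CD P} {W : Finset P} (h1 : e * x = x) (h2 : x * e = x)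
    (h : Cov e W x) {n : ℕ} (hn : 1 ≤ n) : Cov e W (x ^ n) := by
  induction n, hn using Nat.le_induction with
  | base => simpa using h
  | succ n hn ih => rw [pow_succ]; exact ih.mul (mul_pow_right h2 hn) h1 h

/-- binary relations under composition -/
@[ext] structure BR (ι : Type) where
  r : ι → ι → Prop

variable {ι : Type}

instance : Monoid (BR ι) where
  mul R S := ⟨fun a c => ∃ b, R.r a b ∧ S.r b c⟩
  one := ⟨Eq⟩
  mul_assoc R S T := by
    ext a d
    exact ⟨fun ⟨c, ⟨b, h1, h2⟩, h3⟩ => ⟨b, h1, c, h2, h3⟩,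
      fun ⟨b, h1, c, h2, h3⟩ => ⟨c, ⟨b, h1, h2⟩, h3⟩⟩
  one_mul R := by
    ext a d
    exact ⟨fun ⟨b, h1, h2⟩ => by cases h1; exact h2, fun h => ⟨a, rfl, h⟩⟩
  mul_one R := by
    ext a d
    exact ⟨fun ⟨b, h1, h2⟩ => by cases h2; exact h1, fun h => ⟨d, h, rfl⟩⟩

theorem BR.mul_r (R S : BR ι) (a c : ι) : (R * S).r a c ↔ ∃ b, R.r a b ∧ S.r b c := Iff.rfl
theorem BR.one_r (a c : ι) : (1 : BR ι).r a c ↔ a = c := Iff.rfl

instance [Finite ι] : Finite (BR ι) :=
  Finite.of_injective (fun x : BR ι => x.r) (fun _ _ h => BR.ext h)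

/-- the identity on `S` together with the pairs in `Γ` -/
def rel (S : Finset ι) (Γ : Finset (ι × ι)) : BR ι := ⟨fun a b => (a ∈ S ∧ a = b) ∨ (a, b) ∈ Γ⟩

theorem rel_r (S : Finset ι) (Γ : Finset (ι × ι)) (a b : ι) :
    (rel S Γ).r a b ↔ (a ∈ S ∧ a = b) ∨ (a, b) ∈ Γ := Iff.rfl

theorem rel_idem (S : Finset ι) : rel S ∅ * rel S ∅ = rel S ∅ := by
  ext a b
  simp only [BR.mul_r, rel_r]
  grind

theorem rel_sandwich {S S' : Finset ι} (hS : S' ⊆ S) :
    rel S ∅ * rel S' ∅ * rel S ∅ = rel S' ∅ := by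
  ext a b
  simp only [BR.mul_r, rel_r, Finset.notMem_empty, or_false]
  constructor
  · rintro ⟨c, ⟨d, ⟨h1, rfl⟩, h2, rfl⟩, h3, rfl⟩
    exact ⟨h2, rfl⟩
  · rintro ⟨h1, rfl⟩
    exact ⟨a, ⟨a, ⟨hS h1, rfl⟩, h1, rfl⟩, hS h1, rfl⟩

theorem rel_restrict {S S' : Finset ι} {Γ Γ' : Finset (ι × ι)} (hS : S' ⊆ S)
    (h : ∀ a b, (a, b) ∈ Γ' ↔ (a, b) ∈ Γ ∧ a ∈ S' ∧ b ∈ S') :
    rel S' ∅ * rel S Γ * rel S' ∅ = rel S' Γ' := by
  ext a b
  simp only [BR.mul_r, rel_r, h, Finset.notMem_empty, or_false]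
  constructor
  · rintro ⟨c, ⟨d, ⟨h1, rfl⟩, h2⟩, h3, rfl⟩
    rcases h2 with h2 | h2
    · exact Or.inl ⟨h1, h2.2⟩
    · exact Or.inr ⟨h2, h1, h3⟩
  · rintro (⟨h1, rfl⟩ | ⟨h1, h2, h3⟩)
    · exact ⟨a, ⟨a, ⟨h1, rfl⟩, Or.inl ⟨hS h1, rfl⟩⟩, h1, rfl⟩
    · exact ⟨b, ⟨a, ⟨h2, rfl⟩, Or.inr h1⟩, h3, rfl⟩

theorem rel_union [DecidableEq ι] {S A B : Finset ι} {Γ Γ' : Finset (ι × ι)} (hA : A ⊆ S)
    (hB : B ⊆ S) (hd : Disjoint A B) (h1 : Γ ⊆ A ×ˢ B) (h2 : Γ' ⊆ A ×ˢ B) :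
    rel S Γ * rel S Γ' = rel S (Γ ∪ Γ') := by
  ext a b
  simp only [BR.mul_r, rel_r, Finset.mem_union]
  constructor
  · rintro ⟨c, ⟨h3, rfl⟩ | h3, ⟨h4, rfl⟩ | h4⟩
    · exact Or.inl ⟨h3, rfl⟩
    · exact Or.inr (Or.inr h4)
    · exact Or.inr (Or.inl h3)
    · exact absurd (Finset.mem_product.1 (h1 h3)).2
        (Finset.disjoint_left.1 hd (Finset.mem_product.1 (h2 h4)).1)
  · rintro (⟨h3, rfl⟩ | h3 | h3)
    · exact ⟨a, Or.inl ⟨h3, rfl⟩, Or.inl ⟨h3, rfl⟩⟩
    · exact ⟨b, Or.inr h3, Or.inl ⟨hB (Finset.mem_product.1 (h1 h3)).2, rfl⟩⟩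
    · exact ⟨a, Or.inl ⟨hA (Finset.mem_product.1 (h2 h3)).1, rfl⟩, Or.inr h3⟩

theorem rel_path [DecidableEq ι] {S : Finset ι} {a o b : ι} (ha : a ∈ S) (ho : o ∈ S) (hb : b ∈ S) :
    rel S {(a, o)} * rel S {(o, b)} = rel S {(a, o), (o, b), (a, b)} := by
  ext c d
  simp only [BR.mul_r, rel_r, Finset.mem_insert, Finset.mem_singleton, Prod.mk.injEq]
  constructor
  · rintro ⟨t, ⟨h3, rfl⟩ | ⟨rfl, rfl⟩, ⟨h4, rfl⟩ | ⟨h4, rfl⟩⟩
    · exact Or.inl ⟨h3, rfl⟩
    · exact Or.inr (Or.inr (Or.inl ⟨h4, rfl⟩))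
    · exact Or.inr (Or.inl ⟨rfl, rfl⟩)
    · exact Or.inr (Or.inr (Or.inr ⟨rfl, rfl⟩))
  · rintro (⟨h3, rfl⟩ | ⟨rfl, rfl⟩ | ⟨rfl, rfl⟩ | ⟨rfl, rfl⟩)
    · exact ⟨c, Or.inl ⟨h3, rfl⟩, Or.inl ⟨h3, rfl⟩⟩
    · exact ⟨d, Or.inr ⟨rfl, rfl⟩, Or.inl ⟨ho, rfl⟩⟩
    · exact ⟨c, Or.inl ⟨ho, rfl⟩, Or.inr ⟨rfl, rfl⟩⟩
    · exact ⟨o, Or.inr ⟨rfl, rfl⟩, Or.inr ⟨rfl, rfl⟩⟩

theorem exists_perm [DecidableEq ι] {S : Finset ι} {a b i j : ι} (ha : a ∈ S) (hb : b ∈ S)
    (hi : i ∈ S) (hj : j ∈ S) (hab : a ≠ b) (hij : i ≠ j) :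
    ∃ σ : Equiv.Perm ι, σ a = i ∧ σ b = j ∧ ∀ s, σ s ∈ S ↔ s ∈ S := by
  have hsw : ∀ c d, c ∈ S → d ∈ S → ∀ s, Equiv.swap c d s ∈ S ↔ s ∈ S := by
    intro c d hc hd s
    rw [Equiv.swap_apply_def]
    split_ifs with h1 h2
    · simp [h1, hc, hd]
    · simp [h2, hc, hd]
    · rfl
  have hb' : Equiv.swap a i b ∈ S := (hsw a i ha hi b).2 hb
  have hne : i ≠ Equiv.swap a i b := by
    intro h
    have : Equiv.swap a i a = Equiv.swap a i b := by rw [← h]; simp
    exact hab ((Equiv.swap a i).injective this)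
  refine ⟨(Equiv.swap a i).trans (Equiv.swap (Equiv.swap a i b) j), ?_, ?_, ?_⟩
  · simp [Equiv.swap_apply_of_ne_of_ne hne hij]
  · simp
  · intro s
    simp only [Equiv.trans_apply]
    rw [hsw _ _ hb' hj, hsw _ _ ha hi]

theorem rel_conj {S : Finset ι} (σ : Equiv.Perm ι) (hσ : ∀ s, σ s ∈ S ↔ s ∈ S)
    {Γ Γ' : Finset (ι × ι)} (h : ∀ a b, (a, b) ∈ Γ' ↔ (σ a, σ b) ∈ Γ ∧ a ∈ S ∧ b ∈ S) :
    rel S ∅ * (⟨fun a b => b = σ a⟩ : BR ι) * rel S Γ * (⟨fun a b => a = σ b⟩ : BR ι) * rel S ∅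
      = rel S Γ' := by
  ext a b
  simp only [BR.mul_r, rel_r, h, Finset.notMem_empty, or_false]
  constructor
  · rintro ⟨c, ⟨d, ⟨t, ⟨s, ⟨h1, rfl⟩, rfl⟩, h2⟩, rfl⟩, h3, rfl⟩
    rcases h2 with h2 | h2
    · exact Or.inl ⟨h1, σ.injective h2.2⟩
    · exact Or.inr ⟨h2, h1, h3⟩
  · rintro (⟨h1, rfl⟩ | ⟨h1, h2, h3⟩)
    · exact ⟨a, ⟨σ a, ⟨σ a, ⟨a, ⟨h1, rfl⟩, rfl⟩, Or.inl ⟨(hσ a).2 h1, rfl⟩⟩, rfl⟩, h1, rfl⟩
    · exact ⟨b, ⟨σ b, ⟨σ a, ⟨a, ⟨h2, rfl⟩, rfl⟩, Or.inr h1⟩, rfl⟩, h3, rfl⟩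

/-- a semigroup of (diagram, relation) pairs covering all relations, with separation -/
structure Sys (P : Type u) (ι : Type) where
  T : Set (CD P × BR ι)
  mul_mem : ∀ {a b}, a ∈ T → b ∈ T → a * b ∈ T
  surj : ∀ R, ∃ x ∈ T, x.2 = R
  sep : ∀ e ∈ T, ∀ x ∈ T, e * x = x → x * e = x → e.1.Sub x.1 → ∀ a b, x.2.r a b → e.2.r a b

variable {P : Type u} (Z : Sys P ι)

theorem Sys.pow_mem {x : CD P × BR ι} (hx : x ∈ Z.T) {n : ℕ} (hn : 1 ≤ n) : x ^ n ∈ Z.T := by
  induction n, hn using Nat.le_induction with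
  | base => simpa using hx
  | succ n _ ih => rw [pow_succ]; exact Z.mul_mem ih hx

/-- minimal idempotent lift of the identity of `S` -/
def Sys.Min (S : Finset ι) (e : CD P × BR ι) : Prop :=
  e ∈ Z.T ∧ e * e = e ∧ e.2 = rel S ∅ ∧
    ∀ f ∈ Z.T, f * f = f → f.2 = rel S ∅ → e * f = f → f * e = f → f = e

theorem Sys.exists_min [Finite P] [Finite ι] (S : Finset ι) : ∃ e, Z.Min S e := by
  have hne : (Set.univ ∩ {e | e ∈ Z.T ∧ e * e = e ∧ e.2 = rel S ∅}).Nonempty := by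
    obtain ⟨x, hx, hx2⟩ := Z.surj (rel S ∅)
    obtain ⟨n, hn, h⟩ := exists_idem_pow x
    refine ⟨x ^ n, trivial, Z.pow_mem hx hn, h, ?_⟩
    rw [Prod.pow_snd, hx2, pow_of_idem (rel_idem S) hn]
  obtain ⟨e, ⟨_, he1, he2, he3⟩, hmin⟩ := Set.exists_min_image _
    (fun e : CD P × BR ι => (Set.range (fun t => e * t)).ncard) (Set.toFinite _) hne
  refine ⟨e, he1, he2, he3, fun f hf1 hf2 hf3 h1 h2 => ?_⟩
  have hsub : Set.range (fun t => f * t) ⊆ Set.range (fun t => e * t) := by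
    rintro _ ⟨t, rfl⟩
    exact ⟨f * t, by simp only [← mul_assoc, h1]⟩
  have heq := Set.eq_of_subset_of_ncard_le hsub (hmin f ⟨trivial, hf1, hf2, hf3⟩) (Set.toFinite _)
  have : e ∈ Set.range (fun t => f * t) := by rw [heq]; exact ⟨e, he2⟩
  obtain ⟨t, ht⟩ := this
  have h3 : f * e = e := by rw [← ht]; simp only [← mul_assoc, hf2]
  rw [← h2, h3]

theorem Sys.Min.inv [Finite P] [Finite ι] {Z : Sys P ι} {S : Finset ι} {g t : CD P × BR ι}
    (hg : Z.Min S g) (ht : t ∈ Z.T) (h1 : g * t = t) (h2 : t * g = t) (h3 : t.2 = rel S ∅) :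
    ∃ k ∈ Z.T, t * k = g ∧ k * g = k ∧ k.2 = rel S ∅ := by
  obtain ⟨n, hn, h⟩ := exists_idem_pow t
  have hf : t ^ n = g := hg.2.2.2 _ (Z.pow_mem ht hn) h
    (by rw [Prod.pow_snd, h3, pow_of_idem (rel_idem S) hn]) (mul_pow_left h1 hn)
    (mul_pow_right h2 hn)
  have hn' : 1 ≤ 2 * n - 1 := by omega
  refine ⟨t ^ (2 * n - 1), Z.pow_mem ht hn', ?_, mul_pow_right h2 hn', ?_⟩
  · rw [← pow_succ', show 2 * n - 1 + 1 = n + n by omega, pow_add, h, hf]
  · rw [Prod.pow_snd, h3, pow_of_idem (rel_idem S) hn']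

theorem Sys.transfer [Finite P] [Finite ι] {S : Finset ι} {e g u v : CD P × BR ι}
    (heT : e ∈ Z.T) (he : e * e = e) (hg : Z.Min S g) (hu : u ∈ Z.T) (hv : v ∈ Z.T)
    (h : rel S ∅ * u.2 * e.2 * v.2 * rel S ∅ = rel S ∅) (W : Finset P) :
    ∃ W' : Finset P, W'.card ≤ W.card ∧ ∀ x ∈ Z.T, e * x = x → x * e = x → Cov e.1 W x.1 →
      ∃ x' ∈ Z.T, g * x' = x' ∧ x' * g = x' ∧ x'.2 = rel S ∅ * u.2 * x.2 * v.2 * rel S ∅ ∧
        Cov g.1 W' x'.1 := by
  obtain ⟨hgT, hgg, hg2, hgmin⟩ := hg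
  have hg' : ∀ t, g * (g * t) = g * t := fun t => by rw [← mul_assoc, hgg]
  have he' : ∀ t, e * (e * t) = e * t := fun t => by rw [← mul_assoc, he]
  obtain ⟨k, hkT, hk1, hk2, hk3⟩ := Sys.Min.inv ⟨hgT, hgg, hg2, hgmin⟩
    (t := g * u * e * v * g)
    (Z.mul_mem (Z.mul_mem (Z.mul_mem (Z.mul_mem hgT hu) heT) hv) hgT)
    (by simp only [mul_assoc, hg']) (by simp only [mul_assoc, hgg])
    (by simp only [Prod.snd_mul, hg2, h])
  have e1 : g * u * e * e = g * u * e := by rw [mul_assoc, he]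
  have e2 : e * (e * v * g * k) = e * v * g * k := by simp only [mul_assoc, he']
  have e3 : g * u * e * (e * v * g * k) = g := by
    calc g * u * e * (e * v * g * k) = g * u * e * v * g * k := by simp only [mul_assoc, he']
      _ = g := hk1
  obtain ⟨W', hW', hcov⟩ := ctx_cov (e := e.1) (g := g.1) (y := (g * u * e).1)
    (z := (e * v * g * k).1) (congrArg Prod.fst he) (congrArg Prod.fst hgg)
    (congrArg Prod.fst e1) (congrArg Prod.fst e2) (congrArg Prod.fst e3) W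
  refine ⟨W', hW', fun x hx h1 h2 hc => ⟨g * u * e * x * (e * v * g * k), ?_, ?_, ?_, ?_, ?_⟩⟩
  · exact Z.mul_mem (Z.mul_mem (Z.mul_mem (Z.mul_mem hgT hu) heT) hx)
      (Z.mul_mem (Z.mul_mem (Z.mul_mem heT hv) hgT) hkT)
  · simp only [mul_assoc, hg']
  · simp only [mul_assoc, hk2]
  · have e4 : g * u * e * x * (e * v * g * k) = g * u * x * v * g * k := by
      rw [mul_assoc (g * u), h1]
      simp only [← mul_assoc]
      rw [mul_assoc (g * u), h2]
    rw [e4]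
    simp only [Prod.snd_mul, hg2, hk3]
    rw [mul_assoc _ (rel S ∅), rel_idem]
  · exact hcov x.1 (congrArg Prod.fst h1) (congrArg Prod.fst h2) hc

theorem Sys.main [Fintype P] [Finite ι] [DecidableEq ι] (k : ℕ) :
    ∀ S : Finset ι, 2 + 31 * k ≤ S.card → ∀ e, Z.Min S e → ∀ x ∈ Z.T, e * x = x → x * e = x →
      ∀ i ∈ S, ∀ j ∈ S, i ≠ j → x.2 = rel S {(i, j)} → ∀ W, Cov e.1 W x.1 → 2 ^ k ≤ W.card := by
  classical
  induction k with
  | zero =>
    intro S _ e he x hx h1 h2 i _ j _ hij hx2 W hc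
    rw [pow_zero, Finset.one_le_card, Finset.nonempty_iff_ne_empty]
    rintro rfl
    have := Z.sep e he.1 x hx h1 h2 (hc.sub_of_empty (congrArg Prod.fst he.2.1)
      (congrArg Prod.fst h1) (congrArg Prod.fst h2)) i j (by rw [hx2]; simp [rel_r])
    rw [he.2.2.1] at this
    simp [rel_r, hij] at this
  | succ k ih =>
    intro S hS e he x hx h1 h2 i hi j hj hij hx2 W hc
    have hconj : ∀ a b : ι, ∃ W' : Finset P, ∃ x' : CD P × BR ι, a ∈ S → b ∈ S → a ≠ b →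
        W'.card ≤ W.card ∧ x' ∈ Z.T ∧ e * x' = x' ∧ x' * e = x' ∧ x'.2 = rel S {(a, b)} ∧
          Cov e.1 W' x'.1 := by
      intro a b
      by_cases hab : a ∈ S ∧ b ∈ S ∧ a ≠ b
      · obtain ⟨ha, hb, hab⟩ := hab
        obtain ⟨σ, hσ1, hσ2, hσ⟩ := exists_perm ha hb hi hj hab hij
        obtain ⟨u, hu, hu2⟩ := Z.surj ⟨fun a b => b = σ a⟩
        obtain ⟨v, hv, hv2⟩ := Z.surj ⟨fun a b => a = σ b⟩
        obtain ⟨W', hW', h⟩ := Z.transfer he.1 he.2.1 he hu hv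
          (by rw [hu2, hv2, he.2.2.1]; exact rel_conj σ hσ (by simp)) W
        obtain ⟨x', k1, k2, k3, k4, k5⟩ := h x hx h1 h2 hc
        refine ⟨W', x', fun _ _ _ => ⟨hW', k1, k2, k3, ?_, k5⟩⟩
        rw [k4, hu2, hv2, hx2]
        refine rel_conj σ hσ ?_
        intro c d
        simp only [Finset.mem_singleton, Prod.mk.injEq, ← hσ1, ← hσ2, σ.injective.eq_iff]
        constructor
        · rintro ⟨rfl, rfl⟩; exact ⟨⟨rfl, rfl⟩, ha, hb⟩
        · exact fun h => h.1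
      · exact ⟨W, x, fun ha hb hne => absurd ⟨ha, hb, hne⟩ hab⟩
    choose Wf xf hf using hconj
    obtain ⟨o, ho⟩ : S.Nonempty := ⟨i, hi⟩
    have hS1 : (S.erase o).card = S.card - 1 := Finset.card_erase_of_mem ho
    obtain ⟨A, hA, hAc⟩ := Finset.exists_subset_card_eq (s := S.erase o) (n := 16) (by omega)
    have hS2 : (S.erase o \ A).card = S.card - 1 - 16 := by
      rw [Finset.card_sdiff_of_subset hA, hS1, hAc]
    obtain ⟨B, hB', hBc⟩ := Finset.exists_subset_card_eq (s := S.erase o \ A) (n := 16) (by omega)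
    have hB : B ⊆ S.erase o := hB'.trans Finset.sdiff_subset
    have hd : Disjoint A B := (Finset.disjoint_of_subset_right hB' Finset.disjoint_sdiff)
    have hAo : ∀ a ∈ A, a ∈ S ∧ a ≠ o := fun a ha =>
      ⟨Finset.mem_of_mem_erase (hA ha), Finset.ne_of_mem_erase (hA ha)⟩
    have hBo : ∀ b ∈ B, b ∈ S ∧ o ≠ b := fun b hb =>
      ⟨Finset.mem_of_mem_erase (hB hb), (Finset.ne_of_mem_erase (hB hb)).symm⟩
    set W1 := A.biUnion (fun a => Wf a o) ∪ B.biUnion (fun b => Wf o b) with hW1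
    have hW1c : W1.card ≤ 32 * W.card := by
      have c1 := Finset.card_biUnion_le_card_mul A (fun a => Wf a o) W.card
        (fun a ha => (hf a o (hAo a ha).1 ho (hAo a ha).2).1)
      have c2 := Finset.card_biUnion_le_card_mul B (fun b => Wf o b) W.card
        (fun b hb => (hf o b ho (hBo b hb).1 (hBo b hb).2).1)
      have c3 := Finset.card_union_le (A.biUnion (fun a => Wf a o)) (B.biUnion (fun b => Wf o b))
      rw [hAc] at c1
      rw [hBc] at c2
      rw [hW1]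
      omega
    obtain ⟨β, hβT, hββ, heβ, hβe, hβ2⟩ : ∃ β ∈ Z.T, β * β = β ∧ e * β = β ∧ β * e = β ∧
        β.2 = rel (S.erase o) ∅ := by
      obtain ⟨u, hu, hu2⟩ := Z.surj (rel (S.erase o) ∅)
      obtain ⟨n, hn, h⟩ := exists_idem_pow (e * u * e)
      refine ⟨(e * u * e) ^ n, Z.pow_mem (Z.mul_mem (Z.mul_mem he.1 hu) he.1) hn, h,
        mul_pow_left (by simp only [← mul_assoc, he.2.1]) hn,
        mul_pow_right (by simp only [mul_assoc, he.2.1]) hn, ?_⟩
      have : (e * u * e).2 = rel (S.erase o) ∅ := by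
        simp only [Prod.snd_mul, hu2, he.2.2.1]
        exact rel_sandwich (Finset.erase_subset _ _)
      rw [Prod.pow_snd, this, pow_of_idem (rel_idem _) hn]
    obtain ⟨W2, hW2, hcov⟩ := ctx_cov (e := e.1) (g := β.1) (y := β.1) (z := β.1)
      (congrArg Prod.fst he.2.1) (congrArg Prod.fst hββ) (congrArg Prod.fst hβe)
      (congrArg Prod.fst heβ) (congrArg Prod.fst hββ) W1
    have hw : ∀ a ∈ A, ∀ b ∈ B, ∃ w ∈ Z.T, β * w = w ∧ w * β = w ∧
        w.2 = rel (S.erase o) {(a, b)} ∧ Cov β.1 W2 w.1 := by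
      intro a ha b hb
      obtain ⟨_, a1, a2, a3, a4, a5⟩ := hf a o (hAo a ha).1 ho (hAo a ha).2
      obtain ⟨_, b1, b2, b3, b4, b5⟩ := hf o b ho (hBo b hb).1 (hBo b hb).2
      refine ⟨β * (xf a o * xf o b) * β, Z.mul_mem (Z.mul_mem hβT (Z.mul_mem a1 b1)) hβT,
        by simp only [← mul_assoc, hββ], by simp only [mul_assoc, hββ], ?_, ?_⟩
      · simp only [Prod.snd_mul, hβ2, a4, b4]
        rw [rel_path (hAo a ha).1 ho (hBo b hb).1]
        refine rel_restrict (Finset.erase_subset _ _) ?_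
        intro c d
        have t1 := hAo a ha
        have t2 := hBo b hb
        simp only [Finset.mem_insert, Finset.mem_singleton, Prod.mk.injEq, Finset.mem_erase]
        clear * - t1 t2
        grind
      · refine hcov (xf a o * xf o b).1 ?_ ?_ ?_
        · exact congrArg Prod.fst (show e * (xf a o * xf o b) = _ by rw [← mul_assoc, a2])
        · exact congrArg Prod.fst (show (xf a o * xf o b) * e = _ by rw [mul_assoc, b3])
        · refine Cov.mul (congrArg Prod.fst a3) (congrArg Prod.fst b2) (a5.mono ?_) (b5.mono ?_)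
          · exact (Finset.subset_biUnion_of_mem (fun a => Wf a o) ha).trans
              Finset.subset_union_left
          · exact (Finset.subset_biUnion_of_mem (fun b => Wf o b) hb).trans
              Finset.subset_union_right
    have hchain : ∀ Γ : Finset (ι × ι), Γ ⊆ A ×ˢ B → ∃ X ∈ Z.T, X * X = X ∧ β * X = X ∧
        X * β = X ∧ X.2 = rel (S.erase o) Γ ∧ Cov β.1 W2 X.1 ∧
        2 * pot β.1 W2 X.1 + Γ.card * 2 ^ k ≤ 2 * pot β.1 W2 β.1 := by
      intro Γ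
      induction Γ using Finset.induction_on with
      | empty => exact fun _ => ⟨β, hβT, hββ, hββ, hββ, hβ2, Cov.self _ _, by simp⟩
      | @insert ab Γ hab ihΓ =>
        intro hsub
        obtain ⟨a, b⟩ := ab
        have hΓ : Γ ⊆ A ×ˢ B := (Finset.subset_insert _ _).trans hsub
        have hab' := Finset.mem_product.1 (hsub (Finset.mem_insert_self _ _))
        obtain ⟨X, hXT, hXX, hβX, hXβ, hX2, hXc, hXp⟩ := ihΓ hΓ
        obtain ⟨w, hwT, hβw, hwβ, hw2, hwc⟩ := hw a hab'.1 b hab'.2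
        obtain ⟨n, hn, hYY⟩ := exists_idem_pow (X * w * X)
        have ht2 : (X * w * X).2 = rel (S.erase o) (insert (a, b) Γ) := by
          have hs : ({(a, b)} : Finset (ι × ι)) ⊆ A ×ˢ B := by simpa using hab'
          simp only [Prod.snd_mul, hX2, hw2]
          rw [rel_union hA hB hd hΓ hs, rel_union hA hB hd (Finset.union_subset hΓ hs) hΓ]
          congr 1
          ext p
          simp only [Finset.mem_union, Finset.mem_singleton, Finset.mem_insert]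
          tauto
        have hY2 : ((X * w * X) ^ n).2 = rel (S.erase o) (insert (a, b) Γ) := by
          rw [Prod.pow_snd, ht2, pow_of_idem _ hn]
          rw [rel_union hA hB hd hsub hsub, Finset.union_self]
        have hβt : β * (X * w * X) = X * w * X := by simp only [← mul_assoc, hβX]
        have htβ : (X * w * X) * β = X * w * X := by simp only [mul_assoc, hXβ]
        have hXt : X * (X * w * X) = X * w * X := by simp only [← mul_assoc, hXX]
        have htX : (X * w * X) * X = X * w * X := by simp only [mul_assoc, hXX]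
        have hYT : (X * w * X) ^ n ∈ Z.T := Z.pow_mem (Z.mul_mem (Z.mul_mem hXT hwT) hXT) hn
        have hYc : Cov β.1 W2 ((X * w * X) ^ n).1 := by
          rw [Prod.pow_fst]
          refine Cov.pow (congrArg Prod.fst hβt) (congrArg Prod.fst htβ) ?_ hn
          refine Cov.mul (x := (X * w).1) (y := X.1) ?_ (congrArg Prod.fst hβX) ?_ hXc
          · exact congrArg Prod.fst (show X * w * β = _ by rw [mul_assoc, hwβ])
          · exact Cov.mul (congrArg Prod.fst hXβ) (congrArg Prod.fst hβw) hXc hwc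
        have hXY := mul_pow_left hXt hn
        have hYX := mul_pow_right htX hn
        obtain ⟨V, hV, hVp⟩ := chain_step (congrArg Prod.fst hXX) (congrArg Prod.fst hYY)
          (congrArg Prod.fst hXY) (congrArg Prod.fst hYX) (congrArg Prod.fst hβX)
          (congrArg Prod.fst hXβ) hYc
        refine ⟨_, hYT, hYY, mul_pow_left hβt hn, mul_pow_right htβ hn, hY2, hYc, ?_⟩
        -- the step is expensive by the induction hypothesis
        set S2 := insert a (insert b (S.erase o \ (A ∪ B))) with hS2def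
        have hne : a ≠ b := fun h => Finset.disjoint_left.1 hd hab'.1 (h ▸ hab'.2)
        have hS2c : 2 + 31 * k ≤ S2.card := by
          have c1 : (S.erase o \ (A ∪ B)).card = S.card - 1 - 32 := by
            rw [Finset.card_sdiff_of_subset (Finset.union_subset hA hB), hS1,
              Finset.card_union_of_disjoint hd, hAc, hBc]
          rw [hS2def, Finset.card_insert_of_notMem (by simp [hne, hab'.1]),
            Finset.card_insert_of_notMem (by simp [hab'.2]), c1]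
          omega
        have hS2sub : S2 ⊆ S.erase o :=
          Finset.insert_subset (hA hab'.1) (Finset.insert_subset (hB hab'.2) Finset.sdiff_subset)
        have hmem : ∀ c d, (c, d) ∈ A ×ˢ B → c ∈ S2 → d ∈ S2 → c = a ∧ d = b := by
          intro c d hcd hc hd'
          obtain ⟨c1, c2⟩ := Finset.mem_product.1 hcd
          simp only [hS2def, Finset.mem_insert, Finset.mem_sdiff, Finset.mem_union] at hc hd'
          have t1 := Finset.disjoint_left.1 hd
          have t2 := hab'.1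
          have t3 := hab'.2
          clear * - t1 t2 t3 hc hd' c1 c2
          grind
        obtain ⟨g, hg⟩ := Z.exists_min S2
        have hres : ∀ Γ1 Γ2 : Finset (ι × ι),
            (∀ c d, (c, d) ∈ Γ2 ↔ (c, d) ∈ Γ1 ∧ c ∈ S2 ∧ d ∈ S2) →
            rel S2 ∅ * g.2 * rel (S.erase o) Γ1 * g.2 * rel S2 ∅ = rel S2 Γ2 := by
          intro Γ1 Γ2 h
          rw [hg.2.2.1, rel_idem, mul_assoc _ (rel S2 ∅), rel_idem]
          exact rel_restrict hS2sub h
        obtain ⟨W', hW', h⟩ := Z.transfer hXT hXX hg hg.1 hg.1 (by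
          rw [hX2]
          refine hres _ _ fun c d => ⟨fun h => by simp at h, fun h => ?_⟩
          obtain ⟨rfl, rfl⟩ := hmem c d (hΓ h.1) h.2.1 h.2.2
          exact absurd h.1 hab) V
        obtain ⟨x', k1, k2, k3, k4, k5⟩ := h _ hYT hXY hYX hV
        have hk := ih S2 hS2c g hg x' k1 k2 k3 a (by simp [hS2def]) b (by simp [hS2def]) hne (by
          rw [k4, hY2]
          refine hres _ _ fun c d => ⟨fun h => ?_, fun h => ?_⟩
          · obtain ⟨rfl, rfl⟩ : c = a ∧ d = b := by simpa using h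
            simp [hS2def]
          · obtain ⟨rfl, rfl⟩ := hmem c d (hsub h.1) h.2.1 h.2.2
            simp) W' k5
        rw [Finset.card_insert_of_notMem hab, add_mul]
        omega
    obtain ⟨X, -, -, -, -, -, -, hX⟩ := hchain _ (Finset.Subset.refl _)
    rw [Finset.card_product, hAc, hBc] at hX
    have := pot_self (congrArg Prod.fst hββ) W2
    rw [pow_succ]
    omega

theorem Sys.bound [Fintype P] {h : ℕ} (hh : 2 ≤ h) (Z : Sys P (Fin h)) :
    2 ^ ((h - 2) / 31) ≤ Fintype.card P := by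
  obtain ⟨e, he⟩ := Z.exists_min Finset.univ
  let i : Fin h := ⟨0, by omega⟩
  let j : Fin h := ⟨1, by omega⟩
  obtain ⟨u, hu, hu2⟩ := Z.surj (rel Finset.univ {(i, j)})
  refine Z.main ((h - 2) / 31) Finset.univ (by simp; omega) e he (e * u * e)
    (Z.mul_mem (Z.mul_mem he.1 hu) he.1) (by simp only [← mul_assoc, he.2.1])
    (by simp only [mul_assoc, he.2.1]) i (by simp) j (by simp) (by simp [i, j]) ?_ Finset.univ
    (Cov.univ _ _)
  simp only [Prod.snd_mul, hu2, he.2.2.1]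
  exact rel_restrict (Finset.Subset.refl _) (by simp)

end Crest.Agent.R294
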