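import Crest.Agent.R294.Main
import Crest.Prelude.Def_TwoWay

/-!
The diagram of a word for a two-way automaton, and the lower bounds for liveness.
-/

namespace Crest.Agent.R294
open Relation Sum Crest.TwoWay

universe u v

section glue
variable {P : Type u}

/-- the sequence of blocks given by a list -/
def seqL (xs : List (Dg P)) : ℕ → Dg P := fun k => xs.getD k (fun _ _ => False)

theorem glue_cons (zs : List (Dg P)) : ∀ (x : Dg P) (a b : P ⊕ P),
    (CD.cl x * (zs.map CD.cl).prod).r a b ↔
      Reach (seqL (x :: zs)) (at2 0 (zs.length + 1) a) (at2 0 (zs.length + 1) b) := by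
  induction zs with
  | nil =>
    intro x a b
    simp only [List.map_nil, List.prod_nil, mul_one, List.length_nil]
    constructor
    · intro h
      exact rt_lift (at2 0 1) (fun c d hcd => Reach.edge (F := seqL [x]) 0 hcd) h
    · intro h
      have key : ∀ w, Reach (seqL [x]) (at2 0 1 a) w → ∃ c, w = at2 0 1 c ∧ ReflTransGen x a c := by
        intro w hw
        induction hw with
        | refl => exact ⟨a, rfl, .refl⟩
        | tail _ hedge ih =>
          obtain ⟨k, c, d, hk, rfl, rfl⟩ := hedge
          match k, hk with
          | 0, hk =>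
            obtain ⟨c', hc, h⟩ := ih
            obtain rfl := at2_inj (by omega) hc
            exact ⟨d, rfl, h.tail hk⟩
          | _ + 1, hk => exact hk.elim
      obtain ⟨c, hc, h⟩ := key _ h
      rwa [at2_inj (by omega) hc]
  | cons y zs ih =>
    intro x a b
    rw [List.map_cons, List.prod_cons, ← mul_assoc, CD.cl_mul, ih]
    have e : seqL (mulR x y :: zs) = coll (seqL (x :: y :: zs)) 0 := by
      funext k
      match k with
      | 0 => rfl
      | _ + 1 => rfl
    rw [e, ← collapse]
    cases a <;> cases b <;> rfl

end glue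

/-- boundary points: the accepting wire, rightward crossings, leftward crossings -/
abbrev Pt (σ : Type u) := Option (σ ⊕ σ)

variable {α : Type v} {σ : Type u}

/-- `a` is an entry point into a cell, in state `q` -/
def Ent (a : Pt σ ⊕ Pt σ) (q : σ) : Prop := a = inl (some (inl q)) ∨ a = inr (some (inr q))

/-- stay moves -/
def St (M : TwoWayNFA α σ) (c : Cell α) (q q' : σ) : Prop := (q', HeadMove.stay) ∈ M.step q c

/-- the raw diagram of one cell -/
inductive CE (M : TwoWayNFA α σ) (c : Cell α) : Pt σ ⊕ Pt σ → Pt σ ⊕ Pt σ → Prop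
  | goL {a q q' q''} : Ent a q → ReflTransGen (St M c) q q' →
      (q'', HeadMove.moveLeft) ∈ M.step q' c → CE M c a (inl (some (inr q'')))
  | goR {a q q' q''} : Ent a q → ReflTransGen (St M c) q q' →
      (q'', HeadMove.moveRight) ∈ M.step q' c → CE M c a (inr (some (inl q'')))
  | acc {a q q'} : Ent a q → ReflTransGen (St M c) q q' → q' ∈ M.accept → CE M c a (inl none)
  | topR : CE M c (inl none) (inr none)
  | topL : CE M c (inr none) (inl none)

/-- the diagram of a word -/
def dia (M : TwoWayNFA α σ) (w : List α) : CD (Pt σ) :=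
  ((w.map fun a => CE M (Cell.letter a)).map CD.cl).prod

theorem dia_append (M : TwoWayNFA α σ) (u w : List α) : dia M (u ++ w) = dia M u * dia M w := by
  simp [dia]

theorem seqL_tape (M : TwoWayNFA α σ) (w : List α) (k : ℕ) :
    seqL (CE M Cell.leftEnd :: ((w.map fun a => CE M (Cell.letter a)) ++ [CE M Cell.rightEnd])) k
      = if k ≤ w.length + 1 then CE M (scan w k) else fun _ _ => False := by
  match k with
  | 0 => simp [seqL, scan]
  | k + 1 =>
    simp only [seqL, scan, Nat.add_one_ne_zero, if_false,
      Nat.add_sub_cancel, List.getD_eq_getElem?_getD, List.getElem?_cons_succ]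
    rcases lt_trichotomy k w.length with h | h | h
    · rw [List.getElem?_append_left (by simpa using h), if_pos (by omega)]
      simp [List.getElem?_eq_getElem h]
    · subst h
      rw [List.getElem?_append_right (by simp), if_pos le_rfl]
      simp
    · rw [List.getElem?_eq_none (by simp; omega), if_neg (by omega)]
      rfl

theorem accepts_iff_reach (M : TwoWayNFA α σ) (w : List α) (F : ℕ → Dg (Pt σ))
    (hF : ∀ k, F k = if k ≤ w.length + 1 then CE M (scan w k) else fun _ _ => False) :
    M.Accepts w ↔ Reach F (0, some (inl M.start)) (0, none) := by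
  have hedge : ∀ k, k ≤ w.length + 1 → ∀ {a b}, CE M (scan w k) a b →
      Reach F (at2 k (k + 1) a) (at2 k (k + 1) b) := by
    intro k hk a b h
    refine Reach.edge k ?_
    rw [hF, if_pos hk]; exact h
  constructor
  · rintro ⟨c, hc, hacc⟩
    have key : ∀ c, ReflTransGen (M.Step w) (M.start, 0) c → c.2 ≤ w.length + 1 ∧
        ∃ a q, Ent a q ∧ Reach F (0, some (inl M.start)) (at2 c.2 (c.2 + 1) a) ∧
          ReflTransGen (St M (scan w c.2)) q c.1 := by
      intro c hc
      induction hc with
      | refl => exact ⟨by simp, inl (some (inl M.start)), M.start, Or.inl rfl, Reach.refl _ _, .refl⟩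
      | @tail c d _ hstep ih =>
        obtain ⟨q, i⟩ := c
        obtain ⟨q', j⟩ := d
        obtain ⟨hi, a, q0, ha, hr, hst⟩ := ih
        obtain ⟨m, hm, hpos⟩ := hstep
        simp only at hi hr hst hm hpos ⊢
        cases m with
        | stay =>
          obtain rfl : i = j := by simpa [movePos] using hpos
          exact ⟨hi, a, q0, ha, hr, hst.tail hm⟩
        | moveLeft =>
          simp only [movePos] at hpos
          split_ifs at hpos with h0
          obtain rfl : i = j + 1 := by simp at hpos; omega
          exact ⟨by omega, inr (some (inr q')), q', Or.inr rfl,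
            hr.trans (hedge _ hi (CE.goL ha hst hm)), .refl⟩
        | moveRight =>
          simp only [movePos] at hpos
          split_ifs at hpos with h0
          obtain rfl : i + 1 = j := by simpa using hpos
          exact ⟨by omega, inl (some (inl q')), q', Or.inl rfl,
            hr.trans (hedge _ hi (CE.goR ha hst hm)), .refl⟩
    obtain ⟨hi, a, q0, ha, hr, hst⟩ := key c hc
    have down : ∀ i, i ≤ w.length + 1 → Reach F (i, none) (0, none) := by
      intro i
      induction i with
      | zero => exact fun _ => Reach.refl _ _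
      | succ i ih => exact fun h => (hedge i (by omega) CE.topL).trans (ih (by omega))
    exact (hr.trans (hedge _ hi (CE.acc ha hst hacc))).trans (down _ hi)
  · intro h
    let Conf : σ × ℕ → Prop := ReflTransGen (M.Step w) (M.start, 0)
    let Inv : ℕ × Pt σ → Prop := fun v => match v.2 with
      | none => M.Accepts w
      | some (inl q) => v.1 ≤ w.length + 1 → Conf (q, v.1)
      | some (inr q) => 1 ≤ v.1 → Conf (q, v.1 - 1)
    have key : ∀ v, Reach F (0, some (inl M.start)) v → Inv v := by
      intro v hv
      induction hv with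
      | refl => exact fun _ => .refl
      | tail _ he ih =>
        obtain ⟨k, a, b, hk, rfl, rfl⟩ := he
        rw [hF] at hk
        split_ifs at hk with hkw
        swap
        · exact hk.elim
        have hent : ∀ {q q'}, Ent a q → ReflTransGen (St M (scan w k)) q q' → Conf (q', k) := by
          intro q q' ha hst
          have h0 : Conf (q, k) := by
            rcases ha with rfl | rfl
            · exact ih hkw
            · exact ih (Nat.le_add_left 1 k)
          induction hst with
          | refl => exact h0
          | tail _ h2 ih2 => exact ReflTransGen.tail ih2 ⟨HeadMove.stay, h2, rfl⟩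
        cases hk with
        | goL ha hst hm =>
          intro h1
          refine ReflTransGen.tail (hent ha hst) ⟨HeadMove.moveLeft, hm, ?_⟩
          have : ¬ k = 0 := by simp at h1; omega
          simp [movePos, this]
        | goR ha hst hm =>
          intro h1
          refine ReflTransGen.tail (hent ha hst) ⟨HeadMove.moveRight, hm, ?_⟩
          have : ¬ w.length + 1 ≤ k := by simp at h1; omega
          simp only [movePos, this, if_false]
          rfl
        | acc ha hst hm => exact ⟨_, hent ha hst, hm⟩
        | topR => exact ih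
        | topL => exact ih
    exact key _ h

theorem accepts_iff (M : TwoWayNFA α σ) (w : List α) :
    M.Accepts w ↔ (CD.cl (CE M Cell.leftEnd) * (dia M w * CD.cl (CE M Cell.rightEnd))).r
      (inl (some (inl M.start))) (inl none) := by
  rw [accepts_iff_reach M w _ (seqL_tape M w)]
  have := glue_cons ((w.map fun a => CE M (Cell.letter a)) ++ [CE M Cell.rightEnd])
    (CE M Cell.leftEnd) (inl (some (inl M.start))) (inl none)
  rw [List.map_append, List.prod_append] at this
  simp only [List.map_cons, List.map_nil, List.prod_cons, List.prod_nil, mul_one] at this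
  exact this.symm

theorem accepts_mono (M : TwoWayNFA α σ) {w w' : List α} (h : (dia M w).Sub (dia M w'))
    (u t : List α) (ha : M.Accepts (u ++ w ++ t)) : M.Accepts (u ++ w' ++ t) := by
  rw [accepts_iff, dia_append, dia_append] at ha ⊢
  exact (CD.Sub.rfl _).mul ((((CD.Sub.rfl _).mul h).mul (CD.Sub.rfl _)).mul (CD.Sub.rfl _)) _ _ ha

section live
variable {h : ℕ}

/-- the composite relation of a word -/
def rho (w : List (Fin h → Fin h → Bool)) : BR (Fin h) := ⟨wordRel w⟩

theorem rho_append (u w : List (Fin h → Fin h → Bool)) : rho (u ++ w) = rho u * rho w := by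
  induction u with
  | nil => exact (one_mul (rho w)).symm
  | cons R u ih =>
    have e : ∀ t : List (Fin h → Fin h → Bool),
        rho (R :: t) = (⟨fun a b => R a b = true⟩ : BR (Fin h)) * rho t := fun _ => rfl
    rw [List.cons_append, e, e, ih, mul_assoc]

theorem rho_single (R : Fin h → Fin h → Bool) : rho [R] = ⟨fun a b => R a b = true⟩ :=
  mul_one (⟨fun a b => R a b = true⟩ : BR (Fin h))

theorem live_iff (w : List (Fin h → Fin h → Bool)) (a b : Fin h) :
    [fun c d => decide (c = a ∧ d = a)] ++ w ++ [fun c d => decide (c = b ∧ d = b)] ∈ liveness h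
      ↔ (rho w).r a b := by
  have e : ∀ t, t ∈ liveness h ↔ ∃ c d, (rho t).r c d := fun _ => Iff.rfl
  rw [e, rho_append, rho_append, rho_single, rho_single]
  simp only [BR.mul_r, decide_eq_true_eq]
  constructor
  · rintro ⟨c, d, s, ⟨t, ⟨-, rfl⟩, h⟩, rfl, -⟩
    exact h
  · intro h
    exact ⟨a, b, b, ⟨a, ⟨rfl, rfl⟩, h⟩, rfl, rfl⟩

/-- the system of a machine, given the separation property -/
def mkSys (M : TwoWayNFA (Fin h → Fin h → Bool) σ)
    (hsep : ∀ w w', w ≠ [] → w' ≠ [] → dia M w * dia M w' = dia M w' →
      dia M w' * dia M w = dia M w' → (dia M w).Sub (dia M w') →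
      ∀ a b, (rho w').r a b → (rho w).r a b) : Sys (Pt σ) (Fin h) where
  T := {x | ∃ w, w ≠ [] ∧ x = (dia M w, rho w)}
  mul_mem := by
    rintro _ _ ⟨u, hu, rfl⟩ ⟨w, _, rfl⟩
    exact ⟨u ++ w, by simp [hu], by rw [dia_append, rho_append]; rfl⟩
  surj R := by
    classical
    refine ⟨_, ⟨[fun a b => decide (R.r a b)], by simp, rfl⟩, ?_⟩
    simp [rho_single]
  sep := by
    rintro _ ⟨u, hu, rfl⟩ _ ⟨w, hw, rfl⟩ h1 h2 h3
    exact hsep u w hu hw (congrArg Prod.fst h1) (congrArg Prod.fst h2) h3

theorem card_Pt [Fintype σ] : Fintype.card (Pt σ) = 2 * Fintype.card σ + 1 := by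
  simp [two_mul]

theorem conondet_bound [Fintype σ] (hh : 2 ≤ h) (M : TwoWayNFA (Fin h → Fin h → Bool) σ)
    (hM : M.language = (liveness h)ᶜ) : 2 ^ ((h - 2) / 31) ≤ 2 * Fintype.card σ + 1 := by
  rw [← card_Pt]
  refine Sys.bound hh (mkSys M ?_)
  intro w w' _ _ _ _ hsub a b hab
  have hacc : ∀ t, M.Accepts t ↔ t ∉ liveness h := fun t => by
    change t ∈ M.language ↔ _
    rw [hM]; rfl
  by_contra hn
  rw [← live_iff, ← hacc] at hn
  have := accepts_mono M hsub _ _ hn
  rw [hacc, live_iff] at this
  exact this hab

end live

end Crest.Agent.R294
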